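import Mathlib

namespace Vale.Agent.P036
open Finset

lemma card_le_sum_cover {α β : Type*} (s : Finset α) (t : Finset β) (P : β → α → Prop)
    [∀ b a, Decidable (P b a)] (B : β → ℝ) (hc : ∀ a ∈ s, ∃ b ∈ t, P b a)
    (hB : ∀ b ∈ t, ((s.filter (P b)).card : ℝ) ≤ B b) : (s.card : ℝ) ≤ ∑ b ∈ t, B b := by
  classical
  have h1 : s ⊆ t.biUnion (fun b => s.filter (P b)) := by
    intro a ha
    obtain ⟨b, hb, hp⟩ := hc a ha
    exact mem_biUnion.2 ⟨b, hb, mem_filter.2 ⟨ha, hp⟩⟩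
  have h2 : s.card ≤ ∑ b ∈ t, (s.filter (P b)).card := (card_le_card h1).trans card_biUnion_le
  calc (s.card : ℝ) ≤ ((∑ b ∈ t, (s.filter (P b)).card : ℕ) : ℝ) := by exact_mod_cast h2
    _ = ∑ b ∈ t, ((s.filter (P b)).card : ℝ) := by push_cast; rfl
    _ ≤ _ := sum_le_sum hB

/-- fibre bound where the fibre may be assumed non-empty -/
lemma card_le_fib {α β : Type*} [DecidableEq β] (s : Finset α) (t : Finset β) (f : α → β)
    (B : ℝ) (hB0 : 0 ≤ B) (hf : ∀ a ∈ s, f a ∈ t)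
    (hB : ∀ a ∈ s, ((s.filter (fun x => f x = f a)).card : ℝ) ≤ B) :
    (s.card : ℝ) ≤ t.card * B := by
  have := card_le_sum_cover s t (fun b a => f a = b) (fun _ => B) (fun a ha => ⟨f a, hf a ha, rfl⟩)
    (by
      intro b _
      rcases (s.filter (fun a => f a = b)).eq_empty_or_nonempty with h | ⟨a, ha⟩
      · rw [h]; simpa using hB0
      · obtain ⟨ha', rfl⟩ := mem_filter.1 ha
        exact hB a ha')
  simpa using this

lemma card_res {α : Type*} (S : Finset α) (f : α → ℤ) (o : ℤ) (m R : ℕ) (hm : 0 < m)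
    (hinj : ∀ x ∈ S, ∀ y ∈ S, f x = f y → x = y)
    (hS : ∀ x ∈ S, o ≤ f x ∧ f x < o + m * R)
    (hd : ∀ x ∈ S, ∀ y ∈ S, (m : ℤ) ∣ f x - f y) : S.card ≤ R := by
  have hm' : (0 : ℤ) < m := by exact_mod_cast hm
  have : S.card ≤ (Ico (0 : ℤ) R).card := by
    apply card_le_card_of_injOn (fun x => (f x - o) / m)
    · intro x hx
      obtain ⟨h1, h2⟩ := hS x hx
      simp only [coe_Ico, Set.mem_Ico]
      refine ⟨Int.ediv_nonneg (by linarith) hm'.le, ?_⟩
      rw [Int.ediv_lt_iff_lt_mul hm']; linarith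
    · intro x hx y hy hxy
      apply hinj x hx y hy
      obtain ⟨c, hc⟩ := hd x hx y hy
      have h1 := Int.mul_ediv_add_emod (f x - o) m
      have h2 := Int.mul_ediv_add_emod (f y - o) m
      have h3 : (f x - o) % m = (f y - o) % m := by
        have : f x - o = (f y - o) + m * c := by linarith
        rw [this, Int.add_mul_emod_self_left]
      simp only at hxy
      rw [hxy, h3] at h1
      linarith
  simpa using this

lemma card_res_real {α : Type*} (S : Finset α) (f : α → ℤ) (o : ℤ) (m N : ℕ) (hm : 0 < m)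
    (hinj : ∀ x ∈ S, ∀ y ∈ S, f x = f y → x = y)
    (hS : ∀ x ∈ S, o ≤ f x ∧ f x ≤ o + N)
    (hd : ∀ x ∈ S, ∀ y ∈ S, (m : ℤ) ∣ f x - f y) : (S.card : ℝ) ≤ (N : ℝ) / m + 1 := by
  have h := card_res S f o m (N / m + 1) hm hinj (by
    intro x hx
    obtain ⟨h1, h2⟩ := hS x hx
    refine ⟨h1, ?_⟩
    have : N < m * (N / m + 1) := Nat.lt_mul_div_succ N hm
    have : (N : ℤ) < m * ((N / m + 1 : ℕ) : ℤ) := by exact_mod_cast this
    linarith) hd
  have h2 : ((N / m : ℕ) : ℝ) ≤ (N : ℝ) / m := Nat.cast_div_le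
  have h3 : (S.card : ℝ) ≤ ((N / m + 1 : ℕ) : ℝ) := by exact_mod_cast h
  push_cast at h3
  linarith

lemma card_mult (S : Finset ℤ) (m : ℕ) (y : ℝ) (hm : 0 < m) (hy : 0 ≤ y)
    (hS : ∀ x ∈ S, x ≠ 0 ∧ (m : ℤ) ∣ x ∧ ((|x| : ℤ) : ℝ) ≤ y) : (S.card : ℝ) ≤ 2 * y / m := by
  have hm' : (0 : ℝ) < m := by exact_mod_cast hm
  set k : ℕ := ⌊y / m⌋₊ with hk
  have hk' : (k : ℝ) ≤ y / m := Nat.floor_le (by positivity)
  have : S.card ≤ ((Icc (-(k : ℤ)) k).erase 0).card := by
    apply card_le_card_of_injOn (fun x : ℤ => x / (m : ℤ))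
    · intro x hx
      obtain ⟨h1, ⟨c, rfl⟩, h3⟩ := hS x hx
      have hmz : (m : ℤ) ≠ 0 := by exact_mod_cast hm.ne'
      simp only [Int.mul_ediv_cancel_left _ hmz, coe_erase, coe_Icc, Set.mem_sdiff, Set.mem_Icc,
        Set.mem_singleton_iff]
      have hc : c ≠ 0 := by rintro rfl; simp at h1
      have h4 : ((c.natAbs : ℕ) : ℝ) ≤ y / m := by
        rw [le_div_iff₀ hm']
        rw [abs_mul] at h3
        push_cast at h3
        rw [Nat.cast_natAbs]
        push_cast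
        rw [abs_of_pos hm'] at h3
        linarith
      have h5 : c.natAbs ≤ k := Nat.le_floor h4
      omega
    · intro x hx y hy hxy
      obtain ⟨_, ⟨c, rfl⟩, _⟩ := hS x hx
      obtain ⟨_, ⟨d, rfl⟩, _⟩ := hS y hy
      have hmz : (m : ℤ) ≠ 0 := by exact_mod_cast hm.ne'
      simp only [Int.mul_ediv_cancel_left _ hmz] at hxy
      rw [hxy]
  rw [card_erase_of_mem (by simp), Int.card_Icc] at this
  have h2 : S.card ≤ 2 * k := by omega
  have h3 : (S.card : ℝ) ≤ 2 * k := by exact_mod_cast h2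
  calc (S.card : ℝ) ≤ 2 * k := h3
    _ ≤ 2 * (y / m) := by linarith
    _ = _ := by ring

lemma dyad {α : Type*} (s : Finset α) (ν : α → ℕ) (W : α → ℝ) (c : ℝ) (L : ℕ)
    (hW : ∀ a ∈ s, 0 ≤ W a) (h1 : ∀ a ∈ s, 1 ≤ ν a ∧ ν a < 2 ^ L)
    (hc : ∀ t : ℕ, 1 ≤ t → ∑ a ∈ s.filter (fun a => ν a ≤ t), W a ≤ c * (t : ℝ) ^ 3) :
    ∑ a ∈ s, W a / (ν a : ℝ) ^ 3 ≤ 8 * c * L := by
  have hmaps : ∀ a ∈ s, Nat.log 2 (ν a) ∈ range L := by
    intro a ha
    obtain ⟨h2, h3⟩ := h1 a ha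
    exact mem_range.2 (Nat.log_lt_of_lt_pow (by omega) h3)
  rw [← sum_fiberwise_of_maps_to hmaps]
  have : ∀ i ∈ range L, ∑ a ∈ s.filter (fun a => Nat.log 2 (ν a) = i), W a / (ν a : ℝ) ^ 3
      ≤ 8 * c := by
    intro i _
    have hp : (0 : ℝ) < (2 : ℝ) ^ i := by positivity
    calc ∑ a ∈ s.filter (fun a => Nat.log 2 (ν a) = i), W a / (ν a : ℝ) ^ 3
        ≤ ∑ a ∈ s.filter (fun a => Nat.log 2 (ν a) = i), W a / ((2 : ℝ) ^ i) ^ 3 := by
          apply sum_le_sum
          intro a ha0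
          obtain ⟨ha, rfl⟩ := mem_filter.1 ha0
          have h2 : 2 ^ Nat.log 2 (ν a) ≤ ν a := Nat.pow_log_le_self 2 (by have := (h1 a ha).1; omega)
          have h3 : (2 : ℝ) ^ Nat.log 2 (ν a) ≤ ν a := by exact_mod_cast h2
          apply div_le_div_of_nonneg_left (hW a ha) (by positivity)
          exact pow_le_pow_left₀ hp.le h3 3
      _ = (∑ a ∈ s.filter (fun a => Nat.log 2 (ν a) = i), W a) / ((2 : ℝ) ^ i) ^ 3 := by
          rw [sum_div]
      _ ≤ (∑ a ∈ s.filter (fun a => ν a ≤ 2 ^ (i + 1)), W a) / ((2 : ℝ) ^ i) ^ 3 := by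
          apply div_le_div_of_nonneg_right _ (by positivity)
          apply sum_le_sum_of_subset_of_nonneg
          · intro a ha0
            obtain ⟨ha, rfl⟩ := mem_filter.1 ha0
            exact mem_filter.2 ⟨ha, (Nat.lt_pow_succ_log_self (by norm_num) _).le⟩
          · intro a ha _
            exact hW a (mem_filter.1 ha).1
      _ ≤ c * ((2 ^ (i + 1) : ℕ) : ℝ) ^ 3 / ((2 : ℝ) ^ i) ^ 3 :=
          div_le_div_of_nonneg_right (hc _ Nat.one_le_two_pow) (by positivity)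
      _ = 8 * c := by
          push_cast
          field_simp
          ring
  calc _ ≤ ∑ _i ∈ range L, 8 * c := sum_le_sum this
    _ = _ := by simp; ring

lemma pow_dvd_of_not_dvd (l : ℤ) (hl : Prime l) (b n : ℕ) (y z : ℤ) (hy : ¬ l ^ (b + 1) ∣ y)
    (h : l ^ (b + n) ∣ y * z) : l ^ n ∣ z := by
  induction n with
  | zero => simp
  | succ n ih =>
    obtain ⟨w, rfl⟩ := ih ((pow_dvd_pow l (by omega)).trans h)
    have h2 : l ^ (b + 1) ∣ y * w := by
      have h3 : l ^ n * l ^ (b + 1) ∣ l ^ n * (y * w) := by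
        convert h using 1 <;> ring
      exact (mul_dvd_mul_iff_left (pow_ne_zero n hl.ne_zero)).1 h3
    by_cases hw : l ∣ w
    · rw [pow_succ]; exact mul_dvd_mul_left _ hw
    · exact absurd (hl.pow_dvd_of_dvd_mul_right (b + 1) hw h2) hy

lemma card_ann {α : Type*} (l j b : ℕ) (hl : l.Prime) (y : ℤ) (hy : ¬ (l : ℤ) ^ (b + 1) ∣ y)
    (S : Finset α) (f : α → ZMod (l ^ j)) (hinj : ∀ x ∈ S, ∀ x' ∈ S, f x = f x' → x = x')
    (hS : ∀ x ∈ S, ∀ x' ∈ S, (y : ZMod (l ^ j)) * (f x - f x') = 0) : S.card ≤ l ^ b := by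
  have : NeZero (l ^ j) := ⟨pow_ne_zero _ hl.ne_zero⟩
  have hinj' : ∀ x ∈ S, ∀ x' ∈ S, (((f x).val : ℕ) : ℤ) = ((f x').val : ℕ) → x = x' := by
    intro x hx x' hx' h
    exact hinj x hx x' hx' (ZMod.val_injective _ (by exact_mod_cast h))
  rcases le_or_gt j b with hjb | hjb
  · refine le_trans (card_res S (fun x => ((f x).val : ℕ)) 0 1 (l ^ j) one_pos hinj' ?_ (by simp))
      (Nat.pow_le_pow_right hl.pos hjb)
    intro x _
    have := ZMod.val_lt (f x)
    constructor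
    · positivity
    · simp only [zero_add, Nat.cast_one, one_mul]; exact_mod_cast this
  · obtain ⟨n, rfl⟩ : ∃ n, j = b + n := ⟨j - b, by omega⟩
    apply card_res S (fun x => ((f x).val : ℕ)) 0 (l ^ n) (l ^ b) (pow_pos hl.pos n) hinj'
    · intro x _
      have := ZMod.val_lt (f x)
      constructor
      · positivity
      · rw [zero_add, ← Nat.cast_mul, ← pow_add, add_comm n b]; exact_mod_cast this
    · intro x hx x' hx'
      push_cast
      apply pow_dvd_of_not_dvd l (Nat.prime_iff_prime_int.1 hl) b n y _ hy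
      have h := hS x hx x' hx'
      have h2 : ((l ^ (b + n) : ℕ) : ℤ) ∣ y * ((((f x).val : ℕ) : ℤ) - ((f x').val : ℕ)) := by
        rw [← ZMod.intCast_zmod_eq_zero_iff_dvd]
        push_cast
        simpa using h
      simpa using h2

lemma fun_count {α : Type*} [DecidableEq α] (U : Finset α) (m r : ℕ) (ι : Fin r ↪ Fin m)
    (b : (Fin r → α) → Prop) [DecidablePred b] :
    ((Fintype.piFinset fun _ : Fin m => U).filter (fun f => b (f ∘ ι))).card * U.card ^ r ≤
      ((Fintype.piFinset fun _ : Fin r => U).filter b).card * U.card ^ m := by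
  classical
  have e1 : U.card ^ r = (Fintype.piFinset fun _ : Fin r => U).card := by simp
  have e2 : U.card ^ m = (Fintype.piFinset fun _ : Fin m => U).card := by simp
  rw [e1, e2, ← card_product, ← card_product]
  apply card_le_card_of_injOn (fun x => (x.1 ∘ ι, Function.extend ι x.2 x.1))
  · rintro ⟨f, h⟩ hx
    simp only [coe_product, Set.mem_prod, mem_coe, mem_filter, Fintype.mem_piFinset] at hx ⊢
    refine ⟨⟨fun i => hx.1.1 _, hx.1.2⟩, fun j => ?_⟩
    by_cases hj : ∃ i, ι i = j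
    · obtain ⟨i, rfl⟩ := hj
      rw [ι.injective.extend_apply]; exact hx.2 i
    · rw [Function.extend_apply' _ _ _ hj]; exact hx.1.1 j
  · rintro ⟨f, h⟩ _ ⟨f', h'⟩ _ hxy
    simp only [Prod.mk.injEq] at hxy ⊢
    obtain ⟨h1, h2⟩ := hxy
    constructor
    · funext j
      by_cases hj : ∃ i, ι i = j
      · obtain ⟨i, rfl⟩ := hj
        exact congrFun h1 i
      · have := congrFun h2 j
        rwa [Function.extend_apply' _ _ _ hj, Function.extend_apply' _ _ _ hj] at this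
    · funext i
      have := congrFun h2 (ι i)
      rwa [ι.injective.extend_apply, ι.injective.extend_apply] at this

lemma sum_cost {α : Type*} [DecidableEq α] (U : Finset α) (hU : U.Nonempty) (m r : ℕ)
    (b : (Fin r → α) → Prop) [DecidablePred b] :
    ∑ f ∈ (Fintype.piFinset fun _ : Fin m => U),
      (((univ : Finset (Fin r ↪ Fin m)).filter (fun ι : Fin r ↪ Fin m => b (f ∘ ι))).card : ℝ) ≤
      (U.card : ℝ) ^ m * ((m : ℝ) ^ r *
        (((Fintype.piFinset fun _ : Fin r => U).filter b).card / (U.card : ℝ) ^ r)) := by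
  have hu : (0 : ℝ) < U.card := by exact_mod_cast hU.card_pos
  have h1 : ∑ f ∈ (Fintype.piFinset fun _ : Fin m => U),
      ((univ : Finset (Fin r ↪ Fin m)).filter (fun ι : Fin r ↪ Fin m => b (f ∘ ι))).card =
      ∑ ι : Fin r ↪ Fin m,
        ((Fintype.piFinset fun _ : Fin m => U).filter (fun f => b (f ∘ ι))).card := by
    simp only [card_filter]
    exact sum_comm
  have h2 : ∀ ι : Fin r ↪ Fin m,
      (((Fintype.piFinset fun _ : Fin m => U).filter (fun f => b (f ∘ ι))).card : ℝ) ≤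
      (U.card : ℝ) ^ m *
        (((Fintype.piFinset fun _ : Fin r => U).filter b).card / (U.card : ℝ) ^ r) := by
    intro ι
    have := fun_count U m r ι b
    rw [mul_div_assoc', le_div_iff₀ (by positivity), mul_comm ((U.card : ℝ) ^ m)]
    exact_mod_cast this
  have h3 : (Fintype.card (Fin r ↪ Fin m) : ℝ) ≤ (m : ℝ) ^ r := by
    have : Fintype.card (Fin r ↪ Fin m) ≤ Fintype.card (Fin r → Fin m) :=
      Fintype.card_le_of_injective (fun ι => ι) DFunLike.coe_injective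
    simp only [Fintype.card_fun, Fintype.card_fin] at this
    exact_mod_cast this
  calc _ = ((∑ ι : Fin r ↪ Fin m,
        ((Fintype.piFinset fun _ : Fin m => U).filter (fun f => b (f ∘ ι))).card : ℕ) : ℝ) := by
        rw [← h1]; push_cast; rfl
    _ ≤ ∑ _ι : Fin r ↪ Fin m, (U.card : ℝ) ^ m *
        (((Fintype.piFinset fun _ : Fin r => U).filter b).card / (U.card : ℝ) ^ r) := by
        push_cast; exact sum_le_sum fun ι _ => h2 ι
    _ = (Fintype.card (Fin r ↪ Fin m) : ℝ) * ((U.card : ℝ) ^ m *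
        (((Fintype.piFinset fun _ : Fin r => U).filter b).card / (U.card : ℝ) ^ r)) := by
        rw [sum_const, card_univ, nsmul_eq_mul]
    _ ≤ (m : ℝ) ^ r * ((U.card : ℝ) ^ m *
        (((Fintype.piFinset fun _ : Fin r => U).filter b).card / (U.card : ℝ) ^ r)) :=
        mul_le_mul_of_nonneg_right h3 (by positivity)
    _ = _ := by ring

lemma deletion {α : Type*} [DecidableEq α] (U : Finset α) (hU : U.Nonempty)
    (b2 : (Fin 2 → α) → Prop) (b3 : (Fin 3 → α) → Prop) [DecidablePred b2] [DecidablePred b3]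
    (n : ℕ)
    (h : ((2 * n : ℕ) : ℝ) ^ 2 *
        (((Fintype.piFinset fun _ : Fin 2 => U).filter b2).card / (U.card : ℝ) ^ 2) +
      ((2 * n : ℕ) : ℝ) ^ 3 *
        (((Fintype.piFinset fun _ : Fin 3 => U).filter b3).card / (U.card : ℝ) ^ 3) ≤ n) :
    ∃ f : Fin n → α, (∀ i, f i ∈ U) ∧ (∀ ι : Fin 2 ↪ Fin n, ¬ b2 (f ∘ ι)) ∧
      (∀ ι : Fin 3 ↪ Fin n, ¬ b3 (f ∘ ι)) := by
  classical
  have hne : (Fintype.piFinset fun _ : Fin (2 * n) => U).Nonempty := by
    obtain ⟨u, hu⟩ := hU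
    exact ⟨fun _ => u, by simpa using fun _ => hu⟩
  have hs2 := sum_cost U hU (2 * n) 2 b2
  have hs3 := sum_cost U hU (2 * n) 3 b3
  have hu : (0 : ℝ) < U.card := by exact_mod_cast hU.card_pos
  obtain ⟨f, hf, hcost⟩ : ∃ f ∈ (Fintype.piFinset fun _ : Fin (2 * n) => U),
      (((univ : Finset (Fin 2 ↪ Fin (2 * n))).filter (fun ι : Fin 2 ↪ Fin (2 * n) => b2 (f ∘ ι))).card : ℝ) +
      (((univ : Finset (Fin 3 ↪ Fin (2 * n))).filter (fun ι : Fin 3 ↪ Fin (2 * n) => b3 (f ∘ ι))).card : ℝ) ≤ n := by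
    apply exists_le_of_sum_le hne
    rw [sum_add_distrib, sum_const, Fintype.card_piFinset, prod_const, card_univ, Fintype.card_fin,
      nsmul_eq_mul]
    have := mul_le_mul_of_nonneg_left h (by positivity : (0 : ℝ) ≤ (U.card : ℝ) ^ (2 * n))
    push_cast at this hs2 hs3 ⊢
    linarith
  set D : Finset (Fin (2 * n)) :=
    ((univ : Finset (Fin 2 ↪ Fin (2 * n))).filter (fun ι : Fin 2 ↪ Fin (2 * n) => b2 (f ∘ ι))).image (fun ι => ι 0) ∪
    ((univ : Finset (Fin 3 ↪ Fin (2 * n))).filter (fun ι : Fin 3 ↪ Fin (2 * n) => b3 (f ∘ ι))).image (fun ι => ι 0)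
    with hD
  have hDc : D.card ≤ n := by
    have h1 : ((univ : Finset (Fin 2 ↪ Fin (2 * n))).filter (fun ι : Fin 2 ↪ Fin (2 * n) => b2 (f ∘ ι))).card +
      ((univ : Finset (Fin 3 ↪ Fin (2 * n))).filter (fun ι : Fin 3 ↪ Fin (2 * n) => b3 (f ∘ ι))).card ≤ n := by
      exact_mod_cast hcost
    exact (card_union_le _ _).trans ((add_le_add card_image_le card_image_le).trans h1)
  have hc : n ≤ Dᶜ.card := by
    rw [card_compl, Fintype.card_fin]; omega
  let e := Dᶜ.orderEmbOfCardLe hc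
  have he : ∀ i, e i ∉ D := fun i => mem_compl.1 (Dᶜ.orderEmbOfCardLe_mem hc i)
  refine ⟨f ∘ e, fun i => Fintype.mem_piFinset.1 hf _, fun ι hb => ?_, fun ι hb => ?_⟩
  · apply he (ι 0)
    apply mem_union_left
    exact mem_image.2 ⟨ι.trans e.toEmbedding, mem_filter.2 ⟨mem_univ _, hb⟩, rfl⟩
  · apply he (ι 0)
    apply mem_union_right
    exact mem_image.2 ⟨ι.trans e.toEmbedding, mem_filter.2 ⟨mem_univ _, hb⟩, rfl⟩

end Vale.Agent.P036
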