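import Vale.Agent.P036.Phi

namespace Vale.Agent.P036
open Finset

def D3 (X Y Z : Fin 3 → ℤ) : ℤ := dot (cr X Y) Z

lemma D3_eq (X Y Z : Fin 3 → ℤ) : D3 X Y Z = (X 1 * Y 2 - X 2 * Y 1) * Z 0 +
    (X 2 * Y 0 - X 0 * Y 2) * Z 1 + (X 0 * Y 1 - X 1 * Y 0) * Z 2 := by
  simp [D3, dot, cr]

lemma D3_cyc (X Y Z : Fin 3 → ℤ) : D3 X Y Z = D3 Y Z X := by
  rw [D3_eq, D3_eq]; ring

lemma D3_sum {ι : Type*} [Fintype ι] (X Y : Fin 3 → ℤ) (c : ι → ℤ) (Z : ι → Fin 3 → ℤ) :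
    D3 X Y (fun i => ∑ s, c s * Z s i) = ∑ s, c s * D3 X Y (Z s) := by
  simp only [D3, dot, mul_sum, ← sum_add_distrib]
  exact sum_congr rfl fun _ _ => by ring

lemma D3_sum3 {ι : Type*} [Fintype ι] (a b c : ι → ℤ) (X Y Z : ι → Fin 3 → ℤ) :
    D3 (fun i => ∑ s, a s * X s i) (fun i => ∑ s, b s * Y s i) (fun i => ∑ s, c s * Z s i) =
      ∑ τ : ι × ι × ι, a τ.1 * b τ.2.1 * c τ.2.2 * D3 (X τ.1) (Y τ.2.1) (Z τ.2.2) := by
  rw [D3_cyc, D3_sum, Fintype.sum_prod_type]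
  refine sum_congr rfl fun s _ => ?_
  rw [D3_cyc, D3_sum, Fintype.sum_prod_type, mul_sum]
  refine sum_congr rfl fun t _ => ?_
  rw [D3_cyc, D3_sum, mul_sum, mul_sum]
  refine sum_congr rfl fun u _ => ?_
  ring

lemma D3_abs (X Y Z : Fin 3 → ℤ) (a b c : ℤ) (hX : ∀ i, |X i| ≤ a) (hY : ∀ i, |Y i| ≤ b)
    (hZ : ∀ i, |Z i| ≤ c) : |D3 X Y Z| ≤ 6 * (a * b * c) := by
  have ha : 0 ≤ a := (abs_nonneg _).trans (hX 0)
  have hb : 0 ≤ b := (abs_nonneg _).trans (hY 0)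
  have aux : ∀ i j k, -(a * b * c) ≤ X i * Y j * Z k ∧ X i * Y j * Z k ≤ a * b * c := by
    intro i j k
    rw [← abs_le, abs_mul, abs_mul]
    exact mul_le_mul (mul_le_mul (hX i) (hY j) (abs_nonneg _) ha) (hZ k) (abs_nonneg _)
      (mul_nonneg ha hb)
  have h1 := aux 1 2 0
  have h2 := aux 2 1 0
  have h3 := aux 2 0 1
  have h4 := aux 0 2 1
  have h5 := aux 0 1 2
  have h6 := aux 1 0 2
  rw [D3_eq, abs_le]
  constructor <;> nlinarith [h1.1, h1.2, h2.1, h2.2, h3.1, h3.2, h4.1, h4.2, h5.1, h5.2, h6.1, h6.2]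

lemma two_pow_ap (a b c : ℕ) (h : 2 ^ a + 2 ^ b = 2 * 2 ^ c) : a = c ∧ b = c := by
  have aux : ∀ a b : ℕ, a < b → 2 ^ a + 2 ^ b = 2 * 2 ^ c → False := by
    intro a b hab h
    have h1 : 2 ^ a < 2 ^ b := Nat.pow_lt_pow_right (by norm_num) hab
    have h2 : 0 < 2 ^ a := by positivity
    have h3 : 2 ^ b < 2 ^ (c + 1) := by rw [pow_succ]; omega
    have h4 : 2 ^ (c + 1) < 2 ^ (b + 1) := by rw [pow_succ, pow_succ]; omega
    rw [Nat.pow_lt_pow_iff_right (by norm_num)] at h3 h4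
    omega
  rcases lt_trichotomy a b with h1 | rfl | h1
  · exact (aux a b h1 h).elim
  · have h2 : 2 ^ a = 2 ^ c := by omega
    have := Nat.pow_right_injective le_rfl h2
    exact ⟨this, this⟩
  · exact (aux b a h1 (by omega)).elim

def pE (r : ℕ) : ℕ := 4 * 2 ^ r
def pJ (r : ℕ) : ℕ := 2 * pE r + 6
def pA (r : ℕ) : ℕ := 3 * pE r + 9
def pW (r : ℕ) : ℕ := 2 * pE r + 4
def pK (r : ℕ) : ℕ := 8 * pE r + 22

def col12 (r l : ℕ) {C : Type} (f : Fin r → C → ℤ) (x : C) : ℤ :=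
  ∑ s : Fin r, (l : ℤ) ^ (pA r + 4 * 2 ^ (s : ℕ)) * f s x

def col3 (r l : ℕ) {C : Type} (f : Fin r → C → ℤ) (x : C) : ℤ :=
  ∑ s : Fin r, (l : ℤ) ^ (pW r - 8 * 2 ^ (s : ℕ)) * f s x

lemma sum_pow_abs (r l n : ℕ) (hl : 0 < l) (e : Fin r → ℕ) (he : ∀ s, e s ≤ n) (f : Fin r → ℤ)
    (hf : ∀ s, 0 ≤ f s ∧ f s < l) : |∑ s, (l : ℤ) ^ e s * f s| ≤ r * (l : ℤ) ^ (n + 1) := by
  have hl' : (1 : ℤ) ≤ l := by exact_mod_cast hl
  calc _ ≤ ∑ s, |(l : ℤ) ^ e s * f s| := abs_sum_le_sum_abs _ _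
    _ ≤ ∑ _s : Fin r, (l : ℤ) ^ (n + 1) := by
        apply sum_le_sum
        intro s _
        rw [abs_mul, abs_of_nonneg (hf s).1, abs_of_nonneg (by positivity), pow_succ]
        exact mul_le_mul (pow_le_pow_right₀ hl' (he s)) (hf s).2.le (hf s).1 (by positivity)
    _ = _ := by simp

lemma two_pow_le (r : ℕ) (s : Fin r) : 2 ^ (s : ℕ) ≤ 2 ^ r :=
  Nat.pow_le_pow_right (by norm_num) s.2.le

lemma col3_dvd (r l : ℕ) {C : Type} (f : Fin r → C → ℤ) (x : C) : (l : ℤ) ∣ col3 r l f x := by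
  apply dvd_sum
  intro s _
  apply Dvd.dvd.mul_right
  apply dvd_pow_self
  have := two_pow_le r s
  unfold pW pE
  omega

lemma main_term (r l : ℕ) (hl : 0 < l) (F G H : Fin r → Fin 3 → ℤ)
    (hb : ∀ s i, (0 ≤ F s i ∧ F s i < l) ∧ (0 ≤ G s i ∧ G s i < l) ∧ (0 ≤ H s i ∧ H s i < l)) :
    ∃ b : ℤ, |D3 (fun i => ∑ s : Fin r, (l : ℤ) ^ (pA r + 4 * 2 ^ (s : ℕ)) * F s i)
      (fun i => ∑ s : Fin r, (l : ℤ) ^ (pA r + 4 * 2 ^ (s : ℕ)) * G s i)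
      (fun i => ∑ s : Fin r, (l : ℤ) ^ (pW r - 8 * 2 ^ (s : ℕ)) * H s i) -
      (l : ℤ) ^ pK r * ∑ s, D3 (F s) (G s) (H s) - (l : ℤ) ^ (pK r + 1) * b| ≤
      6 * r ^ 3 * (l : ℤ) ^ (pK r - 1) := by
  have hl' : (1 : ℤ) ≤ l := by exact_mod_cast hl
  have key : ∀ τ : Fin r × Fin r × Fin r, ∃ b : ℤ,
      |(l : ℤ) ^ (pA r + 4 * 2 ^ (τ.1 : ℕ)) * (l : ℤ) ^ (pA r + 4 * 2 ^ (τ.2.1 : ℕ)) *
        (l : ℤ) ^ (pW r - 8 * 2 ^ (τ.2.2 : ℕ)) * D3 (F τ.1) (G τ.2.1) (H τ.2.2) -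
        (if τ.2 = (τ.1, τ.1) then (l : ℤ) ^ pK r * D3 (F τ.1) (G τ.1) (H τ.1) else 0) -
        (l : ℤ) ^ (pK r + 1) * b| ≤ 6 * (l : ℤ) ^ (pK r - 1) := by
    rintro ⟨s, t, u⟩
    simp only
    have hu := two_pow_le r u
    rw [← pow_add, ← pow_add]
    split_ifs with h
    · simp only [Prod.mk.injEq] at h
      obtain ⟨rfl, rfl⟩ := h
      have e : pA r + 4 * 2 ^ (u : ℕ) + (pA r + 4 * 2 ^ (u : ℕ)) + (pW r - 8 * 2 ^ (u : ℕ)) =
          pK r := by unfold pA pW pK pE; omega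
      refine ⟨0, ?_⟩
      rw [e]
      simp only [sub_self, mul_zero, abs_zero]
      positivity
    · have hne : 2 ^ (s : ℕ) + 2 ^ (t : ℕ) ≠ 2 * 2 ^ (u : ℕ) := by
        intro h1
        obtain ⟨h2, h3⟩ := two_pow_ap _ _ _ h1
        apply h
        rw [Fin.ext h2, Fin.ext h3]
      rcases lt_or_gt_of_ne hne with h1 | h1
      · refine ⟨0, ?_⟩
        have hD := D3_abs (F s) (G t) (H u) l l l
          (fun i => by rw [abs_of_nonneg (hb s i).1.1]; exact (hb s i).1.2.le)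
          (fun i => by rw [abs_of_nonneg (hb t i).2.1.1]; exact (hb t i).2.1.2.le)
          (fun i => by rw [abs_of_nonneg (hb u i).2.2.1]; exact (hb u i).2.2.2.le)
        have hn : pA r + 4 * 2 ^ (s : ℕ) + (pA r + 4 * 2 ^ (t : ℕ)) + (pW r - 8 * 2 ^ (u : ℕ)) + 3
            ≤ pK r - 1 := by unfold pA pW pK pE; omega
        generalize pA r + 4 * 2 ^ (s : ℕ) + (pA r + 4 * 2 ^ (t : ℕ)) + (pW r - 8 * 2 ^ (u : ℕ))
          = n at hn
        simp only [sub_zero, mul_zero, abs_mul]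
        rw [abs_of_nonneg (by positivity : (0 : ℤ) ≤ (l : ℤ) ^ n)]
        calc _ ≤ (l : ℤ) ^ n * (6 * (l * l * l)) := mul_le_mul_of_nonneg_left hD (by positivity)
          _ = 6 * (l : ℤ) ^ (n + 3) := by ring
          _ ≤ _ := mul_le_mul_of_nonneg_left (pow_le_pow_right₀ hl' hn) (by norm_num)
      · obtain ⟨m, hm⟩ : ∃ m, pA r + 4 * 2 ^ (s : ℕ) + (pA r + 4 * 2 ^ (t : ℕ)) +
            (pW r - 8 * 2 ^ (u : ℕ)) = pK r + 1 + m :=
          Nat.exists_eq_add_of_le (by unfold pA pW pK pE; omega)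
        refine ⟨(l : ℤ) ^ m * D3 (F s) (G t) (H u), ?_⟩
        rw [hm, pow_add _ (pK r + 1) m, mul_assoc]
        simp only [sub_zero, sub_self, abs_zero]
        positivity
  choose b hb' using key
  refine ⟨∑ τ, b τ, ?_⟩
  have e : (l : ℤ) ^ pK r * ∑ s, D3 (F s) (G s) (H s) = ∑ τ : Fin r × Fin r × Fin r,
      (if τ.2 = (τ.1, τ.1) then (l : ℤ) ^ pK r * D3 (F τ.1) (G τ.1) (H τ.1) else 0) := by
    rw [Fintype.sum_prod_type, mul_sum]
    refine sum_congr rfl fun s _ => ?_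
    simp
  rw [D3_sum3, e, mul_sum, ← sum_sub_distrib, ← sum_sub_distrib]
  calc _ ≤ _ := abs_sum_le_sum_abs _ _
    _ ≤ ∑ _τ : Fin r × Fin r × Fin r, 6 * (l : ℤ) ^ (pK r - 1) := sum_le_sum fun τ _ => hb' τ
    _ = _ := by simp; ring

theorem top_digit (r l : ℕ) (hl : 48 * (r + 1) ^ 3 < l) {C : Type} (f g h : Fin r → C → ℤ)
    (hb : ∀ s x, (0 ≤ f s x ∧ f s x < l) ∧ (0 ≤ g s x ∧ g s x < l) ∧ (0 ≤ h s x ∧ h s x < l))
    (x : Fin 3 → C)
    (hx : ¬ (l : ℤ) ∣ ∑ s, dot (cr (fun i => f s (x i)) (fun i => g s (x i))) (fun i => h s (x i)))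
    (u v : Fin 3 → ℤ) (hu : ∀ i, 0 ≤ u i ∧ u i < (l : ℤ) ^ pJ r)
    (hv : ∀ i, 0 ≤ v i ∧ v i < (l : ℤ) ^ pJ r) (t : ℤ) (ht : 2 * |t| ≤ (l : ℤ) ^ pK r) :
    ¬ (l : ℤ) ^ (pK r + 1) ∣ D3 (fun i => u i + col12 r l f (x i))
      (fun i => v i + col12 r l g (x i)) (fun i => 1 + col3 r l h (x i)) - t := by
  have hl0 : 0 < l := by omega
  have hl' : (1 : ℤ) ≤ l := by exact_mod_cast hl0
  obtain ⟨b, hm⟩ := main_term r l hl0 (fun s i => f s (x i)) (fun s i => g s (x i))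
    (fun s i => h s (x i)) (fun s i => hb s (x i))
  have b1 : ∀ i, |col12 r l f (x i)| ≤ r * (l : ℤ) ^ (pA r + pE r + 1) := fun i =>
    sum_pow_abs r l _ hl0 _ (fun s => by have := two_pow_le r s; unfold pE; omega) _
      (fun s => (hb s _).1)
  have b2 : ∀ i, |col12 r l g (x i)| ≤ r * (l : ℤ) ^ (pA r + pE r + 1) := fun i =>
    sum_pow_abs r l _ hl0 _ (fun s => by have := two_pow_le r s; unfold pE; omega) _
      (fun s => (hb s _).2.1)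
  have b3 : ∀ i, |col3 r l h (x i)| ≤ r * (l : ℤ) ^ (pW r + 1) := fun i =>
    sum_pow_abs r l _ hl0 _ (fun s => Nat.sub_le _ _) _ (fun s => (hb s _).2.2)
  have bu : ∀ i, |u i| ≤ (l : ℤ) ^ pJ r := fun i => by
    rw [abs_of_nonneg (hu i).1]; exact (hu i).2.le
  have bv : ∀ i, |v i| ≤ (l : ℤ) ^ pJ r := fun i => by
    rw [abs_of_nonneg (hv i).1]; exact (hv i).2.le
  have b2' : ∀ i, |v i + col12 r l g (x i)| ≤ (r + 1) * (l : ℤ) ^ (pA r + pE r + 1) := by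
    intro i
    have h1 := abs_add_le (v i) (col12 r l g (x i))
    have h2 : (l : ℤ) ^ pJ r ≤ (l : ℤ) ^ (pA r + pE r + 1) :=
      pow_le_pow_right₀ hl' (by unfold pJ pA; omega)
    linarith [b2 i, bv i]
  have b3' : ∀ i, |1 + col3 r l h (x i)| ≤ (r + 1) * (l : ℤ) ^ (pW r + 1) := by
    intro i
    have h1 := abs_add_le 1 (col3 r l h (x i))
    have h2 : 1 ≤ (l : ℤ) ^ (pW r + 1) := one_le_pow₀ hl'
    rw [abs_one] at h1
    linarith [b3 i]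
  have e1 := D3_abs _ _ _ _ _ _ bu b2' b3'
  have e2 := D3_abs _ _ _ _ _ _ b1 bv b3'
  have e3 := D3_abs _ _ (fun _ => 1) _ _ 1 b1 b2 (by simp)
  have hsplit : D3 (fun i => u i + col12 r l f (x i))
      (fun i => v i + col12 r l g (x i)) (fun i => 1 + col3 r l h (x i)) =
      D3 u (fun i => v i + col12 r l g (x i)) (fun i => 1 + col3 r l h (x i)) +
      D3 (fun i => col12 r l f (x i)) v (fun i => 1 + col3 r l h (x i)) +
      D3 (fun i => col12 r l f (x i)) (fun i => col12 r l g (x i)) (fun _ => 1) +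
      D3 (fun i => col12 r l f (x i)) (fun i => col12 r l g (x i))
        (fun i => col3 r l h (x i)) := by
    simp only [D3_eq]; ring
  rw [hsplit]
  change |D3 (fun i => col12 r l f (x i)) (fun i => col12 r l g (x i))
    (fun i => col3 r l h (x i)) - (l : ℤ) ^ pK r * ∑ s, dot (cr (fun i => f s (x i))
      (fun i => g s (x i))) (fun i => h s (x i)) - (l : ℤ) ^ (pK r + 1) * b| ≤ _ at hm
  generalize ∑ s, dot (cr (fun i => f s (x i)) (fun i => g s (x i))) (fun i => h s (x i)) = Dg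
    at hx hm
  generalize D3 (fun i => col12 r l f (x i)) (fun i => col12 r l g (x i))
    (fun i => col3 r l h (x i)) = D4 at hm
  generalize D3 (fun i => col12 r l f (x i)) (fun i => col12 r l g (x i)) (fun _ => 1) = E3 at e3
  generalize D3 (fun i => col12 r l f (x i)) v (fun i => 1 + col3 r l h (x i)) = E2 at e2
  generalize D3 u (fun i => v i + col12 r l g (x i)) (fun i => 1 + col3 r l h (x i)) = E1 at e1
  set P : ℤ := (l : ℤ) ^ (pK r - 1) with hP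
  have hP0 : 0 < P := by positivity
  have hK : (l : ℤ) ^ pK r = l * P := by
    rw [hP, ← pow_succ']; congr 1
  have p1 : (l : ℤ) ^ pJ r * (l : ℤ) ^ (pA r + pE r + 1) * (l : ℤ) ^ (pW r + 1) = P := by
    rw [hP, ← pow_add, ← pow_add]; congr 1; unfold pJ pA pW pK; omega
  have p2 : (l : ℤ) ^ (pA r + pE r + 1) * (l : ℤ) ^ (pA r + pE r + 1) ≤ P := by
    rw [hP, ← pow_add]; exact pow_le_pow_right₀ hl' (by unfold pA pK; omega)
  have hr : (0 : ℤ) ≤ r := by positivity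
  have f1 : |E1| ≤ 6 * (r + 1) ^ 2 * P := by rw [← p1]; linarith
  have f2 : |E2| ≤ 6 * (r * (r + 1)) * P := by rw [← p1]; linarith
  have f3 : |E3| ≤ 6 * r ^ 2 * P := by nlinarith [mul_le_mul_of_nonneg_left p2 (sq_nonneg (r : ℤ))]
  have hl2 : 48 * ((r : ℤ) + 1) ^ 3 < l := by exact_mod_cast hl
  rintro ⟨c, hc⟩
  rw [pow_succ, hK] at hc hm
  rw [hK] at ht
  have hd : (l : ℤ) * P ∣ E1 + E2 + E3 + (D4 - l * P * Dg - l * P * l * b) - t :=
    ⟨l * c - Dg - l * b, by linear_combination hc⟩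
  have hz := Int.eq_zero_of_abs_lt_dvd hd (by
    have a1 := abs_sub (E1 + E2 + E3 + (D4 - l * P * Dg - l * P * l * b)) t
    have a2 := abs_add_le (E1 + E2 + E3) (D4 - l * P * Dg - l * P * l * b)
    have a3 := abs_add_three E1 E2 E3
    have a4 : 2 * (6 * ((r : ℤ) + 1) ^ 2 + 6 * (r * (r + 1)) + 6 * r ^ 2 + 6 * r ^ 3) * P <
        l * P := by
      apply mul_lt_mul_of_pos_right _ hP0
      nlinarith [pow_nonneg hr 2, pow_nonneg hr 3]
    linarith)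
  apply hx
  refine ⟨c - b, mul_left_cancel₀ (by positivity : (l : ℤ) * P ≠ 0) ?_⟩
  linear_combination hc - hz

end Vale.Agent.P036
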