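import Vale.Agent.P036.Points

namespace Vale.Agent.P036
open Finset

lemma numeric (l M p c c1 : ℝ) (hl : 1 ≤ l) (hM : l ^ 3 ≤ M) (hp1 : M ^ 8 ≤ p)
    (hp2 : p ≤ 2 * M ^ 8) (hc1 : 0 ≤ c1) (hc : c = 16 * (c1 + 20000)) (R N n : ℝ)
    (hR : R = c * M ^ 17) (hN : N = M * p * R) (hn : n = l * M ^ 39) :
    4 * n ^ 2 * (648 * l * M ^ 4 / N ^ 2) + 8 * n ^ 3 * (c1 * l / (l ^ 3 * N ^ 3) +
      l * M ^ 6 * (2592 * M ^ 2 / (N ^ 3 * R) + 6480 / (p ^ 2 * N ^ 2 * R) +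
        648 / (N ^ 2 * R ^ 2))) ≤ n := by
  have hlM : l ≤ M := le_trans (le_self_pow₀ hl (by norm_num)) hM
  have hM1 : 1 ≤ M := hl.trans hlM
  have hc0 : 320000 ≤ c := by linarith
  have hcc : 1 ≤ c := by linarith
  have hl0 : 0 < l := by linarith
  have hM0 : 0 < M := by linarith
  have hp0 : 0 < p := lt_of_lt_of_le (by positivity) hp1
  have hR0 : 0 < R := by rw [hR]; positivity
  have hN0 : 0 < N := by rw [hN]; positivity
  have hn0 : 0 < n := by rw [hn]; positivity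
  have hNl : c * M ^ 26 ≤ N := by
    rw [hN, hR]
    calc c * M ^ 26 = M * M ^ 8 * (c * M ^ 17) := by ring
      _ ≤ _ := by gcongr
  have t1 : 4 * n ^ 2 * (648 * l * M ^ 4 / N ^ 2) ≤ n / 2 := by
    rw [← mul_div_assoc, div_le_div_iff₀ (by positivity) (by norm_num)]
    calc 4 * n ^ 2 * (648 * l * M ^ 4) * 2 = n * (5184 * (l * l * M ^ 43)) := by rw [hn]; ring
      _ ≤ n * ((c * c) * (M * M * M ^ 50)) := by
          gcongr
          · nlinarith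
          · norm_num
      _ = n * (c * M ^ 26) ^ 2 := by ring
      _ ≤ _ := by gcongr
  have t2 : M ^ 6 * (2592 * M ^ 2 / (N ^ 3 * R)) ≤ 2592 / (l ^ 3 * N ^ 3) := by
    rw [← mul_div_assoc, div_le_div_iff₀ (by positivity) (by positivity)]
    calc M ^ 6 * (2592 * M ^ 2) * (l ^ 3 * N ^ 3) = 2592 * (N ^ 3 * (1 * (l ^ 3 * M ^ 8))) := by
          ring
      _ ≤ 2592 * (N ^ 3 * (c * (M * M ^ 16))) := by
          gcongr
          norm_num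
      _ = _ := by rw [hR]; ring
  have t3 : M ^ 6 * (6480 / (p ^ 2 * N ^ 2 * R)) ≤ 6480 / (l ^ 3 * N ^ 3) := by
    rw [← mul_div_assoc, div_le_div_iff₀ (by positivity) (by positivity)]
    calc M ^ 6 * 6480 * (l ^ 3 * N ^ 3) = 6480 * (p * N ^ 2 * R * (l ^ 3 * M ^ 7)) := by
          rw [hN]; ring
      _ ≤ 6480 * (p * N ^ 2 * R * (M * M ^ 7)) := by gcongr
      _ = 6480 * (p * N ^ 2 * R * M ^ 8) := by ring
      _ ≤ 6480 * (p * N ^ 2 * R * p) := by gcongr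
      _ = _ := by ring
  have t4 : M ^ 6 * (648 / (N ^ 2 * R ^ 2)) ≤ 1296 / (l ^ 3 * N ^ 3) := by
    rw [← mul_div_assoc, div_le_div_iff₀ (by positivity) (by positivity)]
    calc M ^ 6 * 648 * (l ^ 3 * N ^ 3) = 648 * (N ^ 2 * R * (l ^ 3 * M ^ 7 * p)) := by
          rw [hN]; ring
      _ ≤ 648 * (N ^ 2 * R * (M * M ^ 7 * (2 * M ^ 8))) := by gcongr
      _ = 1296 * (N ^ 2 * R * (1 * M ^ 16)) := by ring
      _ ≤ 1296 * (N ^ 2 * R * (c * M ^ 17)) := by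
          gcongr
          norm_num
      _ = _ := by rw [← hR]; ring
  have t5 : c1 * l / (l ^ 3 * N ^ 3) + l * M ^ 6 * (2592 * M ^ 2 / (N ^ 3 * R) +
      6480 / (p ^ 2 * N ^ 2 * R) + 648 / (N ^ 2 * R ^ 2)) ≤
      (c1 + 20000) * l / (l ^ 3 * N ^ 3) := by
    have h1 : M ^ 6 * (2592 * M ^ 2 / (N ^ 3 * R) + 6480 / (p ^ 2 * N ^ 2 * R) +
        648 / (N ^ 2 * R ^ 2)) ≤ 20000 / (l ^ 3 * N ^ 3) := by
      rw [mul_add, mul_add]
      calc _ ≤ 2592 / (l ^ 3 * N ^ 3) + 6480 / (l ^ 3 * N ^ 3) + 1296 / (l ^ 3 * N ^ 3) := by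
            linarith
        _ = 10368 / (l ^ 3 * N ^ 3) := by ring
        _ ≤ _ := by gcongr; norm_num
    calc _ ≤ c1 * l / (l ^ 3 * N ^ 3) + l * (20000 / (l ^ 3 * N ^ 3)) := by
          rw [mul_assoc l]; gcongr
      _ = _ := by ring
  have t6 : 8 * n ^ 3 * ((c1 + 20000) * l / (l ^ 3 * N ^ 3)) ≤ n / 2 := by
    rw [← mul_div_assoc, div_le_div_iff₀ (by positivity) (by norm_num)]
    calc 8 * n ^ 3 * ((c1 + 20000) * l) * 2 = n * (l ^ 3 * (c ^ 1 * M ^ 78)) := by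
          rw [hn, hc]; ring
      _ ≤ n * (l ^ 3 * (c ^ 3 * M ^ 78)) := by gcongr; norm_num
      _ = n * (l ^ 3 * (c * M ^ 26) ^ 3) := by ring
      _ ≤ _ := by gcongr
  have t7 := mul_le_mul_of_nonneg_left t5 (by positivity : 0 ≤ 8 * n ^ 3)
  linarith

lemma poly_lt_two_pow (c e : ℕ) : ∃ l0 : ℕ, ∀ l ≥ l0, c * l ^ e < 2 ^ l := by
  have h := tendsto_pow_const_div_const_pow_of_one_lt e (one_lt_two : (1 : ℝ) < 2)
  have h2 := h.eventually (gt_mem_nhds (show (0 : ℝ) < 1 / (c + 1) by positivity))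
  obtain ⟨l0, hl0⟩ := Filter.eventually_atTop.1 h2
  refine ⟨l0, fun l hl => ?_⟩
  have h3 := hl0 l hl
  rw [div_lt_div_iff₀ (by positivity) (by positivity)] at h3
  have h4 : (c : ℝ) * l ^ e < 2 ^ l := by
    have : (0 : ℝ) ≤ (l : ℝ) ^ e := by positivity
    nlinarith
  exact_mod_cast h4

lemma geometry {C : Type} (n M N T : ℕ) (hM : 0 < M) (hN : 0 < N) (f : Fin n → Pt C)
    (h1 : ∀ i, (0 ≤ (f i).2.1 ∧ (f i).2.1 < N) ∧ (0 ≤ (f i).2.2.1 ∧ (f i).2.2.1 < N) ∧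
      (2 * M * N ≤ (f i).2.2.2 ∧ (f i).2.2.2 < 2 * M * N + N))
    (h2 : ∀ ι : Fin 2 ↪ Fin n, ¬ bad2 (f ∘ ι)) (h3 : ∀ ι : Fin 3 ↪ Fin n, ¬ bad3 T (f ∘ ι)) :
    ∃ P : Finset (ℝ × ℝ), P.card = n ∧ (∀ x ∈ P, x.1 ∈ Set.Icc (0 : ℝ) 1 ∧ x.2 ∈ Set.Icc (0 : ℝ) 1) ∧
      ∀ x ∈ P, ∀ y ∈ P, ∀ z ∈ P, x ≠ y → x ≠ z → y ≠ z →
        (T : ℝ) / (64 * M * (N : ℝ) ^ 3) ≤
          |(y.1 - x.1) * (z.2 - x.2) - (y.2 - x.2) * (z.1 - x.1)| / 2 := by
  classical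
  have hMr : (1 : ℝ) ≤ M := by exact_mod_cast hM
  have hNr : (0 : ℝ) < N := by exact_mod_cast hN
  have hZ : ∀ i, 2 * (M : ℝ) * N ≤ ((f i).2.2.2 : ℝ) ∧ ((f i).2.2.2 : ℝ) ≤ 4 * M * N := by
    intro i
    have a1 : 2 * (M : ℝ) * N ≤ ((f i).2.2.2 : ℝ) := by exact_mod_cast (h1 i).2.2.1
    have a2 : ((f i).2.2.2 : ℝ) < 2 * M * N + N := by exact_mod_cast (h1 i).2.2.2
    exact ⟨a1, by nlinarith⟩
  have hZ0 : ∀ i, (0 : ℝ) < ((f i).2.2.2 : ℝ) := fun i => lt_of_lt_of_le (by positivity) (hZ i).1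
  have h2' : ∀ i j, i ≠ j → (f i).2.1 * (f j).2.2.1 - (f j).2.1 * (f i).2.2.1 ≠ 0 := by
    intro i j hij h
    apply h2 ⟨![i, j], by
      intro a b hab
      fin_cases a <;> fin_cases b <;> simp_all⟩
    exact sub_eq_zero.1 h
  let pt : Fin n → ℝ × ℝ := fun i =>
    (2 * M * (f i).2.1 / (f i).2.2.2, 2 * M * (f i).2.2.1 / (f i).2.2.2)
  have hinj : Function.Injective pt := by
    intro i j h
    by_contra hij
    apply h2' i j hij
    simp only [pt, Prod.mk.injEq] at h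
    obtain ⟨a, b⟩ := h
    rw [div_eq_div_iff (hZ0 i).ne' (hZ0 j).ne'] at a b
    have : (2 * (M : ℝ) * (f i).2.2.2) *
        ((f i).2.1 * (f j).2.2.1 - (f j).2.1 * (f i).2.2.1) = 0 := by
      linear_combination ((f i).2.2.1 : ℝ) * a - ((f i).2.1 : ℝ) * b
    have h4 := (mul_eq_zero.1 this).resolve_left (by have := hZ0 i; positivity)
    exact_mod_cast h4
  refine ⟨univ.image pt, by rw [card_image_of_injective _ hinj]; simp, ?_, ?_⟩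
  · intro x hx
    obtain ⟨i, _, rfl⟩ := mem_image.1 hx
    have aux : ∀ v : ℤ, (0 ≤ v ∧ v < N) → 2 * (M : ℝ) * v / (f i).2.2.2 ∈ Set.Icc (0 : ℝ) 1 := by
      intro v hv
      have a1 : (0 : ℝ) ≤ v := by exact_mod_cast hv.1
      have a2 : (v : ℝ) < N := by exact_mod_cast hv.2
      have := hZ0 i
      refine ⟨by positivity, ?_⟩
      rw [div_le_one this]
      nlinarith [(hZ i).1]
    exact ⟨aux _ (h1 i).1, aux _ (h1 i).2.1⟩
  · intro x hx y hy z hz hxy hxz hyz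
    obtain ⟨i, _, rfl⟩ := mem_image.1 hx
    obtain ⟨j, _, rfl⟩ := mem_image.1 hy
    obtain ⟨k, _, rfl⟩ := mem_image.1 hz
    have hij : i ≠ j := fun h => hxy (h ▸ rfl)
    have hik : i ≠ k := fun h => hxz (h ▸ rfl)
    have hjk : j ≠ k := fun h => hyz (h ▸ rfl)
    have h4 := h3 ⟨![i, j, k], by
      intro a b hab
      fin_cases a <;> fin_cases b <;> simp_all⟩
    have h5 : (T : ℤ) < 2 * |((f j).2.1 * (f k).2.2.1 - (f k).2.1 * (f j).2.2.1) * (f i).2.2.2 +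
        ((f k).2.1 * (f i).2.2.1 - (f i).2.1 * (f k).2.2.1) * (f j).2.2.2 +
        ((f i).2.1 * (f j).2.2.1 - (f j).2.1 * (f i).2.2.1) * (f k).2.2.2| := by
      by_contra h6
      apply h4
      refine ⟨fun a => ?_, not_lt.1 h6⟩
      fin_cases a
      · exact h2' j k hjk
      · exact h2' k i hik.symm
      · exact h2' i j hij
    have h6 : (T : ℝ) < 2 * |(((f j).2.1 : ℝ) * (f k).2.2.1 - (f k).2.1 * (f j).2.2.1) *
        (f i).2.2.2 + ((f k).2.1 * (f i).2.2.1 - (f i).2.1 * (f k).2.2.1) * (f j).2.2.2 +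
        ((f i).2.1 * (f j).2.2.1 - (f j).2.1 * (f i).2.2.1) * (f k).2.2.2| := by
      exact_mod_cast h5
    have zi := hZ0 i
    have zj := hZ0 j
    have zk := hZ0 k
    have e : ((pt j).1 - (pt i).1) * ((pt k).2 - (pt i).2) -
        ((pt j).2 - (pt i).2) * ((pt k).1 - (pt i).1) = (2 * M) ^ 2 *
        ((((f j).2.1 : ℝ) * (f k).2.2.1 - (f k).2.1 * (f j).2.2.1) *
        (f i).2.2.2 + ((f k).2.1 * (f i).2.2.1 - (f i).2.1 * (f k).2.2.1) * (f j).2.2.2 +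
        ((f i).2.1 * (f j).2.2.1 - (f j).2.1 * (f i).2.2.1) * (f k).2.2.2) /
        ((f i).2.2.2 * (f j).2.2.2 * (f k).2.2.2) := by
      simp only [pt]
      field_simp
      ring
    rw [e, abs_div, abs_mul, abs_of_nonneg (by positivity : (0 : ℝ) ≤ (2 * M) ^ 2),
      abs_of_pos (by positivity : (0 : ℝ) < (f i).2.2.2 * (f j).2.2.2 * (f k).2.2.2)]
    generalize |(((f j).2.1 : ℝ) * (f k).2.2.1 - (f k).2.1 * (f j).2.2.1) *
        (f i).2.2.2 + ((f k).2.1 * (f i).2.2.1 - (f i).2.1 * (f k).2.2.1) * (f j).2.2.2 +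
        ((f i).2.1 * (f j).2.2.1 - (f j).2.1 * (f i).2.2.1) * (f k).2.2.2| = D at h6
    have hD : (T : ℝ) / 2 ≤ D := by linarith
    have a1 := (hZ i).2
    have a2 := (hZ j).2
    have a3 := (hZ k).2
    calc (T : ℝ) / (64 * M * (N : ℝ) ^ 3) = (2 * M) ^ 2 * (T / 2) /
          ((4 * M * N) * (4 * M * N) * (4 * M * N)) / 2 := by field_simp; ring
      _ ≤ _ := by
          have : 0 ≤ D := le_trans (by positivity) hD
          gcongr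

theorem prime_case : ∃ B c l0 : ℕ, 0 < B ∧ 0 < c ∧ ∀ l : ℕ, l.Prime → l0 ≤ l →
    ∃ P : Finset (ℝ × ℝ), P.card = l ^ B ∧
      (∀ x ∈ P, x.1 ∈ Set.Icc (0 : ℝ) 1 ∧ x.2 ∈ Set.Icc (0 : ℝ) 1) ∧
      ∀ x ∈ P, ∀ y ∈ P, ∀ z ∈ P, x ≠ y → x ≠ z → y ≠ z →
        (l : ℝ) / (c * ((l : ℝ) ^ B) ^ 2) ≤
          |(y.1 - x.1) * (z.2 - x.2) - (y.2 - x.2) * (z.1 - x.1)| / 2 := by
  obtain ⟨r, hr⟩ := exists_phi
  obtain ⟨k, hk⟩ : ∃ k, k = pK r + 1 := ⟨_, rfl⟩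
  obtain ⟨c1, hc1⟩ : ∃ c1, c1 = 343 ^ 3 * 3456 * (k + 1) * (pJ r + 1) := ⟨_, rfl⟩
  obtain ⟨c, hc⟩ : ∃ c, c = 16 * (c1 + 20000) := ⟨_, rfl⟩
  have hc0 : 0 < c := by omega
  obtain ⟨l1, hl1⟩ := poly_lt_two_pow (12 * c ^ 2) (52 * k)
  refine ⟨39 * k + 1, 512 * c ^ 3, max l1 (48 * (r + 1) ^ 3 + 4), by omega, by positivity,
    fun l hl hl0 => ?_⟩
  have hla : l1 ≤ l := le_trans (le_max_left _ _) hl0
  have hlb : 48 * (r + 1) ^ 3 + 4 ≤ l := le_trans (le_max_right _ _) hl0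
  obtain ⟨f, g, h, hb, hφ⟩ := hr l hl (by omega)
  have hk3 : 3 ≤ k := by unfold pK at hk; omega
  have hM0 : 0 < l ^ k := pow_pos hl.pos k
  have hlM : l ≤ l ^ k := Nat.le_self_pow (by omega) l
  have hM8 : l ^ k ≤ (l ^ k) ^ 8 := Nat.le_self_pow (by omega) _
  obtain ⟨p, hp, hp1, hp2⟩ := Nat.exists_prime_lt_and_le_two_mul ((l ^ k) ^ 8) (by positivity)
  obtain ⟨R, hR⟩ : ∃ R, R = c * (l ^ k) ^ 17 := ⟨_, rfl⟩
  obtain ⟨N, hN⟩ : ∃ N, N = l ^ k * p * R := ⟨_, rfl⟩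
  have hR0 : 0 < R := by rw [hR]; positivity
  have hN0 : 0 < N := by rw [hN]; exact Nat.mul_pos (Nat.mul_pos hM0 hp.pos) hR0
  have hT : l ^ pK r < l ^ k := Nat.pow_lt_pow_right hl.one_lt (by omega)
  have hNu : N ≤ 2 * c * (l ^ k) ^ 26 := by
    rw [hN, hR]
    calc _ ≤ l ^ k * (2 * (l ^ k) ^ 8) * (c * (l ^ k) ^ 17) := by gcongr
      _ = _ := by ring
  have : Nonempty (Fin (l ^ 3)) := ⟨⟨0, pow_pos hl.pos 3⟩⟩
  obtain ⟨F, F1, F2, F3⟩ := points (k := k) hl hp (by omega) (by omega) R N (l ^ pK r) l (pJ r)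
    (l ^ (39 * k + 1)) ((Nat.coprime_primes hl hp).2 (by omega)) hN hN0 hT
    (hT.le.trans (by rw [hN, mul_assoc]; exact Nat.le_mul_of_pos_right _ (Nat.mul_pos hp.pos hR0)))
    (by
      refine lt_of_le_of_lt ?_ (hl1 l hla)
      calc 3 * N ^ 2 ≤ 3 * (2 * c * (l ^ k) ^ 26) ^ 2 := by gcongr
        _ = _ := by ring)
    (by rw [hk]; unfold pK pJ; omega)
    (fun x => ![col12 r l f x, col12 r l g x, 1 + col3 r l h x])
    (by
      intro x hd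
      have h1 : (l : ℤ) ∣ 1 + col3 r l h x := hd
      have h2 := (dvd_add_left (col3_dvd r l h x)).1 h1
      exact hl.one_lt.ne' (by exact_mod_cast Int.eq_one_of_dvd_one (by positivity) h2))
    (by
      intro lab hlab hinj t ht
      have := top_digit r l (by omega) f g h hb (fun i => (lab i).1) (hφ _ hinj)
        (fun i => (lab i).2.1) (fun i => (lab i).2.2)
        (fun i => by exact_mod_cast (mem_Labs.1 (hlab i)).1)
        (fun i => by exact_mod_cast (mem_Labs.1 (hlab i)).2) t (by exact_mod_cast ht)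
      rw [hk]
      push_cast
      exact this)
    (by
      have := numeric l ((l : ℝ) ^ k) p c c1 (by exact_mod_cast hl.pos)
        (pow_le_pow_right₀ (by exact_mod_cast hl.pos) hk3) (by exact_mod_cast hp1.le)
        (by exact_mod_cast hp2) (by positivity) (by exact_mod_cast hc) R N
        ((l ^ (39 * k + 1) : ℕ) : ℝ) (by exact_mod_cast hR) (by exact_mod_cast hN)
        (by push_cast; ring)
      rw [hc1] at this
      rw [Fintype.card_fin]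
      push_cast at this ⊢
      convert this using 8
      norm_num)
  obtain ⟨P, P1, P2, P3⟩ := geometry _ (l ^ k) N (l ^ pK r) hM0 hN0 F F1 F2 F3
  refine ⟨P, P1, P2, fun x hx y hy z hz a1 a2 a3 => le_trans ?_ (P3 x hx y hy z hz a1 a2 a3)⟩
  have hlr : (0 : ℝ) < l := by exact_mod_cast hl.pos
  have hcr : (0 : ℝ) < c := by exact_mod_cast hc0
  have hNr : (0 : ℝ) < N := by exact_mod_cast hN0
  have hNu' : (N : ℝ) ≤ 2 * c * ((l : ℝ) ^ k) ^ 26 := by exact_mod_cast hNu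
  push_cast
  calc _ = (l : ℝ) ^ pK r / (64 * (l : ℝ) ^ k * (2 * c * ((l : ℝ) ^ k) ^ 26) ^ 3) := by
        rw [hk]; field_simp; ring
    _ ≤ _ := by gcongr

theorem all_n : ∃ η : ℝ, 0 < η ∧ ∃ c : ℝ, 0 < c ∧ ∀ n : ℕ, 1 ≤ n →
    ∃ P : Finset (ℝ × ℝ), P.card = n ∧
      (∀ x ∈ P, x.1 ∈ Set.Icc (0 : ℝ) 1 ∧ x.2 ∈ Set.Icc (0 : ℝ) 1) ∧
      ∀ x ∈ P, ∀ y ∈ P, ∀ z ∈ P, x ≠ y → x ≠ z → y ≠ z →
        c * (n : ℝ) ^ (-2 + η) ≤ |(y.1 - x.1) * (z.2 - x.2) - (y.2 - x.2) * (z.1 - x.1)| / 2 := by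
  obtain ⟨B, c, l0, hB, hc, h⟩ := prime_case
  have hBr : (0 : ℝ) < B := by exact_mod_cast hB
  have hcr : (0 : ℝ) < c := by exact_mod_cast hc
  refine ⟨(B : ℝ)⁻¹, by positivity, 1 / (c * ((2 * (l0 + 2)) ^ B) ^ 2), by positivity,
    fun n hn => ?_⟩
  have hnr : (1 : ℝ) ≤ n := by exact_mod_cast hn
  set w : ℝ := (n : ℝ) ^ (B : ℝ)⁻¹ with hw
  have hw1 : 1 ≤ w := Real.one_le_rpow hnr (by positivity)
  have hwB : w ^ B = n := Real.rpow_inv_natCast_pow (by positivity) hB.ne'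
  obtain ⟨l, hl, h1, h2⟩ := Nat.exists_prime_lt_and_le_two_mul (l0 + ⌈w⌉₊) (by
    have : 0 < ⌈w⌉₊ := Nat.ceil_pos.2 (by linarith)
    omega)
  have hwl : w ≤ l := by
    have a1 : w ≤ ⌈w⌉₊ := Nat.le_ceil w
    have a2 : ((⌈w⌉₊ : ℕ) : ℝ) ≤ l := by exact_mod_cast (by omega : ⌈w⌉₊ ≤ l)
    linarith
  have hlw : (l : ℝ) ≤ 2 * (l0 + 2) * w := by
    have a1 : ((⌈w⌉₊ : ℕ) : ℝ) < w + 1 := Nat.ceil_lt_add_one (by linarith)
    have a2 : (l : ℝ) ≤ 2 * (l0 + ((⌈w⌉₊ : ℕ) : ℝ)) := by exact_mod_cast h2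
    have a3 : (0 : ℝ) ≤ l0 := by positivity
    nlinarith
  obtain ⟨P, P1, P2, P3⟩ := h l hl (by omega)
  have hnP : n ≤ P.card := by
    rw [P1]
    have : (n : ℝ) ≤ (l : ℝ) ^ B := by rw [← hwB]; gcongr
    exact_mod_cast this
  obtain ⟨P', hP', hc'⟩ := exists_subset_card_eq hnP
  refine ⟨P', hc', fun x hx => P2 x (hP' hx), fun x hx y hy z hz a1 a2 a3 =>
    le_trans ?_ (P3 x (hP' hx) y (hP' hy) z (hP' hz) a1 a2 a3)⟩
  have hlr : (0 : ℝ) < l := by exact_mod_cast hl.pos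
  rw [Real.rpow_add (by positivity), ← hw, Real.rpow_neg (by positivity), Real.rpow_two]
  calc _ = w / (c * ((2 * (l0 + 2) * w) ^ B) ^ 2) := by
        rw [mul_pow _ w, hwB]; field_simp
    _ ≤ _ := by gcongr

end Vale.Agent.P036
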