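import Vale.Agent.P036.Sub

namespace Vale.Agent.P036
open Finset

def rowOf {C : Type} (A : C → Fin 3 → ℤ) (lab : C × ℤ × ℤ) : Fin 3 → ℤ :=
  ![lab.2.1 + A lab.1 0, lab.2.2 + A lab.1 1, A lab.1 2]

noncomputable def Labs (C : Type) [Fintype C] (J : ℕ) : Finset (C × ℤ × ℤ) :=
  univ ×ˢ Ico (0 : ℤ) J ×ˢ Ico (0 : ℤ) J

lemma card_Labs (C : Type) [Fintype C] (J : ℕ) : (Labs C J).card = Fintype.card C * J ^ 2 := by
  simp [Labs, sq]

lemma mem_Labs {C : Type} [Fintype C] {J : ℕ} {x : C × ℤ × ℤ} :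
    x ∈ Labs C J ↔ (0 ≤ x.2.1 ∧ x.2.1 < J) ∧ (0 ≤ x.2.2 ∧ x.2.2 < J) := by
  simp [Labs]

def Ev (l b : ℕ) (a : Fin 3 → Fin 3 → ℤ) : Prop :=
  ((l : ℤ) ^ b ∣ a 0 0 * a 1 2 - a 0 2 * a 1 0 ∧ (l : ℤ) ^ b ∣ a 0 1 * a 1 2 - a 0 2 * a 1 1) ∧
  ((l : ℤ) ^ b ∣ a 0 0 * a 2 2 - a 0 2 * a 2 0 ∧ (l : ℤ) ^ b ∣ a 0 1 * a 2 2 - a 0 2 * a 2 1)

open Classical in
noncomputable def lev (l k j0 : ℕ) (a : Fin 3 → Fin 3 → ℤ) : ℝ :=
  ∑ b ∈ range j0, (if Ev l b a then (l : ℝ) ^ b else 0) + if Ev l j0 a then (l : ℝ) ^ k else 0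

lemma lev_spec (l k j0 : ℕ) [NeZero l] (hl : l.Prime) (a : Fin 3 → Fin 3 → ℤ)
    (hu : ¬ (l : ℤ) ∣ a 0 2) (j : ℕ) (hj : j ≤ k) :
    ((Dset a (l ^ j)).card : ℝ) ≤ lev l k j0 a * (l : ℝ) ^ j := by
  classical
  have hl1 : (1 : ℝ) ≤ l := by exact_mod_cast hl.pos
  have hs : 0 ≤ ∑ b ∈ range j0, (if Ev l b a then (l : ℝ) ^ b else 0) :=
    sum_nonneg fun _ _ => by split_ifs <;> positivity
  by_cases h : Ev l j0 a
  · have h1 : ((Dset a (l ^ j)).card : ℝ) ≤ (l : ℝ) ^ j * (l : ℝ) ^ j := by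
      exact_mod_cast D_triv a l j hl hu
    refine h1.trans (mul_le_mul_of_nonneg_right ?_ (by positivity))
    unfold lev
    rw [if_pos h]
    have := pow_le_pow_right₀ hl1 hj
    linarith
  · set b := Nat.findGreatest (fun b => Ev l b a) j0 with hb
    have h0 : Ev l b a :=
      Nat.findGreatest_spec (P := fun b => Ev l b a) (Nat.zero_le j0) (by simp [Ev])
    have hbj : b < j0 := lt_of_le_of_ne (Nat.findGreatest_le j0) (fun e => h (e ▸ h0))
    have h1 : ¬ Ev l (b + 1) a :=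
      Nat.findGreatest_is_greatest (P := fun b => Ev l b a) (Nat.lt_succ_self b) hbj
    have h2 : (Dset a (l ^ j)).card ≤ l ^ b * l ^ j := by
      by_contra hc
      apply h1
      refine ⟨⟨?_, ?_⟩, ?_, ?_⟩ <;> by_contra hd
      · exact hc (D_ker a l j b hl hu 1 0 (Or.inl rfl) hd)
      · exact hc (D_ker a l j b hl hu 1 1 (Or.inl rfl) hd)
      · exact hc (D_ker a l j b hl hu 2 0 (Or.inr rfl) hd)
      · exact hc (D_ker a l j b hl hu 2 1 (Or.inr rfl) hd)
    have h3 : ((Dset a (l ^ j)).card : ℝ) ≤ (l : ℝ) ^ b * (l : ℝ) ^ j := by exact_mod_cast h2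
    refine h3.trans (mul_le_mul_of_nonneg_right ?_ (by positivity))
    unfold lev
    rw [if_neg h, add_zero]
    have := single_le_sum (f := fun b => if Ev l b a then (l : ℝ) ^ b else 0)
      (s := range j0) (fun j _ => by split_ifs <;> positivity) (mem_range.2 hbj)
    simpa [h0] using this

open Classical in
lemma card_noninj (C : Type) [Fintype C] :
    ((univ : Finset (Fin 3 → C)).filter fun x => ¬ Function.Injective x).card ≤
      3 * Fintype.card C ^ 2 := by
  have hsub : ((univ : Finset (Fin 3 → C)).filter fun x => ¬ Function.Injective x) ⊆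
      (univ.image fun y : C × C => ![y.1, y.1, y.2]) ∪
      ((univ.image fun y : C × C => ![y.1, y.2, y.1]) ∪
      (univ.image fun y : C × C => ![y.2, y.1, y.1])) := by
    intro x hx
    have hx' := (mem_filter.1 hx).2
    simp only [mem_union, mem_image, mem_univ, true_and]
    by_cases h1 : x 0 = x 1
    · exact Or.inl ⟨(x 0, x 2), by funext i; fin_cases i <;> simp [h1]⟩
    by_cases h2 : x 0 = x 2
    · exact Or.inr (Or.inl ⟨(x 0, x 1), by funext i; fin_cases i <;> simp [h2]⟩)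
    by_cases h3 : x 1 = x 2
    · exact Or.inr (Or.inr ⟨(x 1, x 0), by funext i; fin_cases i <;> simp [h3]⟩)
    exfalso
    apply hx'
    intro i j hij
    fin_cases i <;> fin_cases j <;> simp_all
  have h := (card_le_card hsub).trans ((card_union_le _ _).trans (add_le_add card_image_le
    ((card_union_le _ _).trans (add_le_add card_image_le card_image_le))))
  simp only [card_univ, Fintype.card_prod] at h
  nlinarith

lemma res_count (l b j0 : ℕ) (hl : l.Prime) (hb : b ≤ j0) (y w : ℤ) (hy : ¬ (l : ℤ) ∣ y)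
    (S : Finset ℤ) (hS : ∀ u ∈ S, (0 ≤ u ∧ u < ((l ^ j0 : ℕ) : ℤ)) ∧ (l : ℤ) ^ b ∣ w - y * u) :
    S.card ≤ l ^ (j0 - b) := by
  apply card_res S id 0 (l ^ b) _ (pow_pos hl.pos b) (fun _ _ _ _ h => h)
  · intro u hu
    have := (hS u hu).1
    rw [zero_add, ← Nat.cast_mul, ← pow_add, Nat.add_sub_cancel' hb]
    exact this
  · intro u hu u' hu'
    push_cast
    apply (Nat.prime_iff_prime_int.1 hl).pow_dvd_of_dvd_mul_left b hy
    have := ((hS u' hu').2).sub (hS u hu).2
    have e : y * (id u - id u') = w - y * u' - (w - y * u) := by simp only [id]; ring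
    rw [e]; exact this

open Classical in
lemma count_Ev {C : Type} [Fintype C] (l b j0 : ℕ) (hl : l.Prime) (hb : b ≤ j0)
    (A : C → Fin 3 → ℤ) (hA : ∀ x, ¬ (l : ℤ) ∣ A x 2) :
    ((((Fintype.piFinset fun _ : Fin 3 => Labs C (l ^ j0)).filter fun lab =>
      ¬ Function.Injective fun i => (lab i).1).filter fun lab =>
        Ev l b fun i => rowOf A (lab i)).card : ℝ) ≤
      3 * (Fintype.card C : ℝ) ^ 2 * ((l : ℝ) ^ j0) ^ 6 / ((l : ℝ) ^ b) ^ 4 := by
  set S := ((Fintype.piFinset fun _ : Fin 3 => Labs C (l ^ j0)).filter fun lab =>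
      ¬ Function.Injective fun i => (lab i).1).filter fun lab =>
        Ev l b fun i => rowOf A (lab i) with hS
  have hlab : ∀ lab ∈ S, ∀ i, lab i ∈ Labs C (l ^ j0) := fun lab h =>
    Fintype.mem_piFinset.1 (mem_filter.1 (mem_filter.1 h).1).1
  have h := card_le_fib S
    (((univ : Finset (Fin 3 → C)).filter fun x => ¬ Function.Injective x) ×ˢ
      Ico (0 : ℤ) (l ^ j0 : ℕ) ×ˢ Ico (0 : ℤ) (l ^ j0 : ℕ))
    (fun lab => (fun i => (lab i).1, (lab 0).2)) (((l : ℝ) ^ (j0 - b)) ^ 4) (by positivity)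
    (by
      intro lab h
      have h1 := mem_Labs.1 (hlab lab h 0)
      exact mem_product.2 ⟨mem_filter.2 ⟨mem_univ _, (mem_filter.1 (mem_filter.1 h).1).2⟩,
        mem_product.2 ⟨mem_Ico.2 h1.1, mem_Ico.2 h1.2⟩⟩)
    (by
      intro l0 _
      set S' := S.filter fun lab => ((fun i => (lab i).1), (lab 0).2) =
        ((fun i => (l0 i).1), (l0 0).2) with hS'
      have hm : ∀ lab ∈ S', (∀ i, (lab i).1 = (l0 i).1) ∧ (lab 0).2 = (l0 0).2 ∧
          (∀ i, lab i ∈ Labs C (l ^ j0)) ∧ Ev l b fun i => rowOf A (lab i) := by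
        intro lab h
        obtain ⟨h1, h2⟩ := mem_filter.1 h
        simp only [Prod.mk.injEq] at h2
        exact ⟨fun i => congrFun h2.1 i, h2.2, hlab lab h1, (mem_filter.1 h1).2⟩
      have hc : S'.card ≤ (((S'.image fun lab => (lab 1).2.1) ×ˢ (S'.image fun lab => (lab 1).2.2))
          ×ˢ ((S'.image fun lab => (lab 2).2.1) ×ˢ (S'.image fun lab => (lab 2).2.2))).card := by
        apply card_le_card_of_injOn (fun lab => ((lab 1).2, (lab 2).2))
        · intro lab h
          simp only [coe_product, Set.mem_prod, mem_coe]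
          exact ⟨⟨mem_image_of_mem _ h, mem_image_of_mem _ h⟩,
            mem_image_of_mem _ h, mem_image_of_mem _ h⟩
        · intro lab h lab' h' e
          simp only [Prod.mk.injEq] at e
          obtain ⟨a1, a2, _⟩ := hm lab h
          obtain ⟨b1, b2, _⟩ := hm lab' h'
          funext i
          refine Prod.ext ((a1 i).trans (b1 i).symm) ?_
          fin_cases i
          · exact a2.trans b2.symm
          · exact e.1
          · exact e.2
      have c1 : (S'.image fun lab => (lab 1).2.1).card ≤ l ^ (j0 - b) := by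
        apply res_count l b j0 hl hb (A (l0 0).1 2)
          (((l0 0).2.1 + A (l0 0).1 0) * A (l0 1).1 2 - A (l0 0).1 2 * A (l0 1).1 0) (hA _)
        intro u hu
        obtain ⟨lab, h, rfl⟩ := mem_image.1 hu
        obtain ⟨a1, a2, a3, a4⟩ := hm lab h
        refine ⟨(mem_Labs.1 (a3 1)).1, ?_⟩
        have := a4.1.1
        simp only [rowOf, a1, a2, Matrix.cons_val_zero, Matrix.cons_val] at this
        convert this using 1; ring
      have c2 : (S'.image fun lab => (lab 1).2.2).card ≤ l ^ (j0 - b) := by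
        apply res_count l b j0 hl hb (A (l0 0).1 2)
          (((l0 0).2.2 + A (l0 0).1 1) * A (l0 1).1 2 - A (l0 0).1 2 * A (l0 1).1 1) (hA _)
        intro u hu
        obtain ⟨lab, h, rfl⟩ := mem_image.1 hu
        obtain ⟨a1, a2, a3, a4⟩ := hm lab h
        refine ⟨(mem_Labs.1 (a3 1)).2, ?_⟩
        have := a4.1.2
        simp only [rowOf, a1, a2, Matrix.cons_val_one, Matrix.cons_val_zero,
          Matrix.cons_val] at this
        convert this using 1; ring
      have c3 : (S'.image fun lab => (lab 2).2.1).card ≤ l ^ (j0 - b) := by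
        apply res_count l b j0 hl hb (A (l0 0).1 2)
          (((l0 0).2.1 + A (l0 0).1 0) * A (l0 2).1 2 - A (l0 0).1 2 * A (l0 2).1 0) (hA _)
        intro u hu
        obtain ⟨lab, h, rfl⟩ := mem_image.1 hu
        obtain ⟨a1, a2, a3, a4⟩ := hm lab h
        refine ⟨(mem_Labs.1 (a3 2)).1, ?_⟩
        have := a4.2.1
        simp only [rowOf, a1, a2, Matrix.cons_val_zero, Matrix.cons_val] at this
        convert this using 1; ring
      have c4 : (S'.image fun lab => (lab 2).2.2).card ≤ l ^ (j0 - b) := by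
        apply res_count l b j0 hl hb (A (l0 0).1 2)
          (((l0 0).2.2 + A (l0 0).1 1) * A (l0 2).1 2 - A (l0 0).1 2 * A (l0 2).1 1) (hA _)
        intro u hu
        obtain ⟨lab, h, rfl⟩ := mem_image.1 hu
        obtain ⟨a1, a2, a3, a4⟩ := hm lab h
        refine ⟨(mem_Labs.1 (a3 2)).2, ?_⟩
        have := a4.2.2
        simp only [rowOf, a1, a2, Matrix.cons_val_one, Matrix.cons_val_zero,
          Matrix.cons_val] at this
        convert this using 1; ring
      simp only [card_product] at hc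
      have h5 := hc.trans (Nat.mul_le_mul (Nat.mul_le_mul c1 c2) (Nat.mul_le_mul c3 c4))
      have h6 : (S'.card : ℝ) ≤ (l : ℝ) ^ (j0 - b) * (l : ℝ) ^ (j0 - b) *
        ((l : ℝ) ^ (j0 - b) * (l : ℝ) ^ (j0 - b)) := by exact_mod_cast h5
      linarith)
  have hl0 : (0 : ℝ) < l := by exact_mod_cast hl.pos
  refine h.trans ?_
  have h2 : ((((univ : Finset (Fin 3 → C)).filter fun x => ¬ Function.Injective x).card : ℕ) : ℝ)
      ≤ 3 * (Fintype.card C : ℝ) ^ 2 := by exact_mod_cast card_noninj C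
  rw [card_product, card_product, Int.card_Ico, sub_zero, Int.toNat_natCast]
  have e : (l : ℝ) ^ j0 = (l : ℝ) ^ (j0 - b) * (l : ℝ) ^ b := by
    rw [← pow_add, Nat.sub_add_cancel hb]
  push_cast
  calc _ ≤ (3 * (Fintype.card C : ℝ) ^ 2 * ((l : ℝ) ^ j0 * (l : ℝ) ^ j0)) *
        ((l : ℝ) ^ (j0 - b)) ^ 4 := by gcongr
    _ = _ := by rw [e]; field_simp

open Classical in
lemma sum_lev {C : Type} [Fintype C] (l k j0 : ℕ) (hl : l.Prime) (hk : k ≤ 4 * j0)
    (A : C → Fin 3 → ℤ) (hA : ∀ x, ¬ (l : ℤ) ∣ A x 2) :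
    ∑ lab ∈ ((Fintype.piFinset fun _ : Fin 3 => Labs C (l ^ j0)).filter fun lab =>
      ¬ Function.Injective fun i => (lab i).1), lev l k j0 (fun i => rowOf A (lab i)) ≤
      3 * (Fintype.card C : ℝ) ^ 2 * ((l : ℝ) ^ j0) ^ 6 * (j0 + 1) := by
  have hl1 : (1 : ℝ) ≤ l := by exact_mod_cast hl.pos
  unfold lev
  rw [sum_add_distrib, sum_comm]
  have aux : ∀ b n, b ≤ j0 → n ≤ 4 * b →
      ∑ lab ∈ ((Fintype.piFinset fun _ : Fin 3 => Labs C (l ^ j0)).filter fun lab =>
        ¬ Function.Injective fun i => (lab i).1),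
        (if Ev l b (fun i => rowOf A (lab i)) then (l : ℝ) ^ n else 0) ≤
        3 * (Fintype.card C : ℝ) ^ 2 * ((l : ℝ) ^ j0) ^ 6 := by
    intro b n hb hn
    rw [← sum_filter, sum_const, nsmul_eq_mul]
    refine (mul_le_mul_of_nonneg_right (count_Ev l b j0 hl hb A hA) (by positivity)).trans ?_
    rw [div_mul_eq_mul_div, div_le_iff₀ (by positivity), ← pow_mul (l : ℝ) b 4]
    exact mul_le_mul_of_nonneg_left (pow_le_pow_right₀ hl1 (by omega)) (by positivity)
  have h1 := sum_le_sum (s := range j0) fun b hb => aux b b (mem_range.1 hb).le (by omega)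
  have h2 := aux j0 k le_rfl hk
  rw [sum_const, card_range, nsmul_eq_mul] at h1
  linarith

end Vale.Agent.P036
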