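import Vale.Agent.P036.Stage

namespace Vale.Agent.P036
open Finset

def mx (κ : ℤ × ℤ) : ℕ := max κ.1.natAbs κ.2.natAbs

noncomputable def Pset (N : ℕ) : Finset (ℤ × ℤ) :=
  (Icc (-(N : ℤ)) N ×ˢ Icc (-(N : ℤ)) N).filter fun κ => 1 ≤ mx κ

lemma mem_Pset {N : ℕ} {κ : ℤ × ℤ} : κ ∈ Pset N ↔ 1 ≤ mx κ ∧ mx κ ≤ N := by
  rw [Pset, mem_filter, mem_product, mem_Icc, mem_Icc]
  unfold mx
  omega

lemma card_Icc_sym (t : ℕ) : ((Icc (-(t : ℤ)) t).card : ℝ) = 2 * t + 1 := by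
  rw [Int.card_Icc]
  have : ((t : ℤ) + 1 - -(t : ℤ)).toNat = 2 * t + 1 := by omega
  rw [this]; push_cast; ring

lemma sum1 (N L : ℕ) (hL : N < 2 ^ L) : ∑ κ ∈ Pset N, 1 / (mx κ : ℝ) ^ 2 ≤ 72 * (L : ℝ) := by
  have h := dyad (Pset N) mx (fun κ => (mx κ : ℝ)) 9 L (fun _ _ => by positivity)
    (fun κ hκ => ⟨(mem_Pset.1 hκ).1, lt_of_le_of_lt (mem_Pset.1 hκ).2 hL⟩) (by
      intro t ht
      have htr : (1 : ℝ) ≤ t := by exact_mod_cast ht
      calc _ ≤ ∑ _κ ∈ (Pset N).filter (fun κ => mx κ ≤ t), (t : ℝ) :=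
            sum_le_sum fun κ hκ => by exact_mod_cast (mem_filter.1 hκ).2
        _ = ((Pset N).filter (fun κ => mx κ ≤ t)).card * (t : ℝ) := by
            rw [sum_const, nsmul_eq_mul]
        _ ≤ ((Icc (-(t : ℤ)) t ×ˢ Icc (-(t : ℤ)) t).card : ℝ) * t := by
            apply mul_le_mul_of_nonneg_right _ (by positivity)
            apply Nat.cast_le.2 (card_le_card _)
            intro κ hκ
            have := (mem_filter.1 hκ).2
            simp only [mx, mem_product, mem_Icc] at this ⊢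
            omega
        _ ≤ _ := by
            rw [card_product, Nat.cast_mul, card_Icc_sym]
            have : (2 * (t : ℝ) + 1) * (2 * t + 1) ≤ 9 * t ^ 2 := by nlinarith
            nlinarith)
  calc _ = ∑ κ ∈ Pset N, (mx κ : ℝ) / (mx κ : ℝ) ^ 3 := by
        apply sum_congr rfl
        intro κ hκ
        have : (0 : ℝ) < mx κ := by exact_mod_cast (mem_Pset.1 hκ).1
        field_simp
    _ ≤ _ := h
    _ = _ := by ring

def Special (p : ℕ) (κ : ℤ × ℤ) : Prop :=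
  (κ.1 ≠ 0 ∧ (p : ℤ) ∣ κ.1) ∨ (κ.2 ≠ 0 ∧ (p : ℤ) ∣ κ.2) ∨ (κ.1 + κ.2 ≠ 0 ∧ (p : ℤ) ∣ κ.1 + κ.2)

lemma special_aux (p t : ℕ) (hp : 0 < p) (ht : 1 ≤ t) (S : Finset (ℤ × ℤ)) (f : ℤ × ℤ → ℤ × ℤ)
    (hf : Function.Injective f)
    (hS : ∀ κ ∈ S, (f κ).1 ≠ 0 ∧ (p : ℤ) ∣ (f κ).1 ∧ |(f κ).1| ≤ 2 * t ∧ |(f κ).2| ≤ t) :
    (S.card : ℝ) ≤ 24 * (t : ℝ) ^ 3 / p ^ 2 := by
  classical
  have hpr : (0 : ℝ) < p := by exact_mod_cast hp
  have htr : (1 : ℝ) ≤ t := by exact_mod_cast ht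
  rcases S.eq_empty_or_nonempty with rfl | ⟨κ0, h0⟩
  · simp only [card_empty, Nat.cast_zero]; positivity
  have hpt : (p : ℝ) ≤ 2 * t := by
    obtain ⟨h1, h2, h3, _⟩ := hS κ0 h0
    have := Int.le_of_dvd (abs_pos.2 h1) ((dvd_abs _ _).2 h2)
    exact_mod_cast this.trans h3
  have h1 : S.card ≤ ((S.image fun κ => (f κ).1) ×ˢ Icc (-(t : ℤ)) t).card := by
    apply card_le_card_of_injOn f _ hf.injOn
    intro κ hκ
    simp only [coe_product, Set.mem_prod, mem_coe, mem_Icc]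
    exact ⟨mem_image_of_mem _ hκ, abs_le.1 (hS κ hκ).2.2.2⟩
  have h2 := card_mult (S.image fun κ => (f κ).1) p (2 * t) hp (by positivity) (by
    intro x hx
    obtain ⟨κ, hκ, rfl⟩ := mem_image.1 hx
    obtain ⟨a1, a2, a3, _⟩ := hS κ hκ
    exact ⟨a1, a2, by exact_mod_cast a3⟩)
  have h3 : (S.card : ℝ) ≤ ((S.image fun κ => (f κ).1).card : ℝ) * (2 * t + 1) := by
    rw [← card_Icc_sym]
    rw [card_product] at h1
    exact_mod_cast h1
  calc _ ≤ _ := h3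
    _ ≤ (2 * (2 * t) / p) * (3 * t) := mul_le_mul h2 (by linarith) (by positivity) (by positivity)
    _ = 12 * t ^ 2 * p / p ^ 2 := by field_simp; ring
    _ ≤ 12 * t ^ 2 * (2 * t) / p ^ 2 := by gcongr
    _ = _ := by ring

open Classical in
lemma sum3 (N L p : ℕ) (hp : 0 < p) (hL : N < 2 ^ L) :
    ∑ κ ∈ (Pset N).filter (Special p), 1 / (mx κ : ℝ) ^ 3 ≤ 576 * (L : ℝ) / p ^ 2 := by
  have h := dyad ((Pset N).filter (Special p)) mx (fun _ => 1) (72 / p ^ 2) L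
    (fun _ _ => zero_le_one)
    (fun κ hκ => ⟨(mem_Pset.1 (mem_filter.1 hκ).1).1,
      lt_of_le_of_lt (mem_Pset.1 (mem_filter.1 hκ).1).2 hL⟩) (by
      intro t ht
      rw [sum_const, nsmul_eq_mul, mul_one]
      set S := ((Pset N).filter (Special p)).filter fun κ => mx κ ≤ t with hS
      have hb : ∀ κ ∈ S, |κ.1| ≤ t ∧ |κ.2| ≤ t := by
        intro κ hκ
        have := (mem_filter.1 hκ).2
        unfold mx at this
        rw [Int.abs_eq_natAbs, Int.abs_eq_natAbs]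
        omega
      have s1 := special_aux p t hp ht (S.filter fun κ => κ.1 ≠ 0 ∧ (p : ℤ) ∣ κ.1) id
        Function.injective_id (by
          intro κ hκ
          obtain ⟨a1, a2⟩ := mem_filter.1 hκ
          have := hb κ a1
          exact ⟨a2.1, a2.2, by simp only [id]; linarith [this.1, abs_nonneg κ.1], this.2⟩)
      have s2 := special_aux p t hp ht (S.filter fun κ => κ.2 ≠ 0 ∧ (p : ℤ) ∣ κ.2) Prod.swap
        Prod.swap_injective (by
          intro κ hκ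
          obtain ⟨a1, a2⟩ := mem_filter.1 hκ
          have := hb κ a1
          exact ⟨a2.1, a2.2, by simp only [Prod.fst_swap]; linarith [this.2, abs_nonneg κ.2],
            this.1⟩)
      have s3 := special_aux p t hp ht
        (S.filter fun κ => κ.1 + κ.2 ≠ 0 ∧ (p : ℤ) ∣ κ.1 + κ.2) (fun κ => (κ.1 + κ.2, κ.2))
        (by
          intro x y h
          simp only [Prod.mk.injEq] at h
          exact Prod.ext (by linarith [h.1, h.2]) h.2) (by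
          intro κ hκ
          obtain ⟨a1, a2⟩ := mem_filter.1 hκ
          have := hb κ a1
          exact ⟨a2.1, a2.2, by linarith [this.1, this.2, abs_add_le κ.1 κ.2], this.2⟩)
      have hsub : S ⊆ (S.filter fun κ => κ.1 ≠ 0 ∧ (p : ℤ) ∣ κ.1) ∪
          ((S.filter fun κ => κ.2 ≠ 0 ∧ (p : ℤ) ∣ κ.2) ∪
          (S.filter fun κ => κ.1 + κ.2 ≠ 0 ∧ (p : ℤ) ∣ κ.1 + κ.2)) := by
        intro κ hκ
        have := (mem_filter.1 (mem_filter.1 hκ).1).2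
        simp only [mem_union, mem_filter]
        unfold Special at this
        tauto
      have hc := (card_le_card hsub).trans ((card_union_le _ _).trans
        (Nat.add_le_add_left (card_union_le _ _) _))
      have hc' : (S.card : ℝ) ≤ ((S.filter fun κ => κ.1 ≠ 0 ∧ (p : ℤ) ∣ κ.1).card : ℝ) +
          (((S.filter fun κ => κ.2 ≠ 0 ∧ (p : ℤ) ∣ κ.2).card : ℝ) +
          ((S.filter fun κ => κ.1 + κ.2 ≠ 0 ∧ (p : ℤ) ∣ κ.1 + κ.2).card : ℝ)) := by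
        exact_mod_cast hc
      have e : 72 / (p : ℝ) ^ 2 * (t : ℝ) ^ 3 = 24 * (t : ℝ) ^ 3 / p ^ 2 +
        (24 * (t : ℝ) ^ 3 / p ^ 2 + 24 * (t : ℝ) ^ 3 / p ^ 2) := by ring
      rw [e]
      linarith)
  calc _ ≤ _ := h
    _ = _ := by ring

noncomputable def Dline (N m q : ℕ) : Finset ℤ :=
  (Icc (-(N : ℤ)) N).filter fun x => |x| * m ≤ N ∧ (q : ℤ) ∣ x

noncomputable def Dbox (N m q : ℕ) : Finset (ℤ × ℤ) := Dline N m q ×ˢ Dline N m q

lemma mem_Dline {N m q : ℕ} (hm : 1 ≤ m) {x : ℤ} :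
    x ∈ Dline N m q ↔ |x| * m ≤ N ∧ (q : ℤ) ∣ x := by
  simp only [Dline, mem_filter, mem_Icc, and_iff_right_iff_imp]
  rintro ⟨h, _⟩
  have hm' : (1 : ℤ) ≤ m := by exact_mod_cast hm
  have : |x| ≤ N := by nlinarith [abs_nonneg x]
  exact abs_le.1 this

lemma card_Dbox (N m q : ℕ) (hm : 1 ≤ m) (hq : 1 ≤ q) (h : q * m ≤ N) :
    ((Dbox N m q).card : ℝ) ≤ (3 * N / (q * m)) ^ 2 := by
  have hmz : (0 : ℤ) < m := by exact_mod_cast hm
  have hqm : (0 : ℝ) < q * m := by exact_mod_cast Nat.mul_pos hq hm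
  have h1 := card_res_real (Dline N m q) (fun x => x * m) (-N) (q * m) (2 * N) (Nat.mul_pos hq hm)
    (fun x _ y _ h => mul_right_cancel₀ hmz.ne' h) (by
      intro x hx
      have := ((mem_Dline hm).1 hx).1
      rw [← abs_of_pos hmz, ← abs_mul, abs_le] at this
      push_cast
      constructor <;> linarith [this.1, this.2]) (by
      intro x hx y hy
      rw [← sub_mul]
      push_cast
      exact mul_dvd_mul_right (((mem_Dline hm).1 hx).2.sub ((mem_Dline hm).1 hy).2) _)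
  have h2 : (1 : ℝ) ≤ N / (q * m) := by
    rw [le_div_iff₀ hqm, one_mul]; exact_mod_cast h
  have h3 : ((Dline N m q).card : ℝ) ≤ 3 * N / (q * m) := by
    push_cast at h1
    have : 3 * (N : ℝ) / (q * m) = 2 * N / (q * m) + N / (q * m) := by ring
    linarith
  rw [Dbox, card_product, Nat.cast_mul, sq]
  exact mul_self_le_mul_self (by positivity) h3

lemma par_exists (x y x' y' : ℤ) (h : x * y' = x' * y) :
    ∃ a b d1 d2 : ℤ, (a ≠ 0 ∨ b ≠ 0) ∧ x = a * d1 ∧ y = a * d2 ∧ x' = b * d1 ∧ y' = b * d2 ∧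
      ((d1 = 0 ∧ d2 = 0) → a = 1 ∧ b = 0) := by
  have aux : ∀ x y x' y' : ℤ, x * y' = x' * y → (x ≠ 0 ∨ x' ≠ 0) →
      ∃ a b d1 d2 : ℤ, (a ≠ 0 ∨ b ≠ 0) ∧ x = a * d1 ∧ y = a * d2 ∧ x' = b * d1 ∧ y' = b * d2 ∧
        d1 ≠ 0 := by
    intro x y x' y' h hx
    have hg : 0 < Int.gcd x x' := Int.gcd_pos_iff.2 hx
    obtain ⟨a, b, hab, ha, hb⟩ := Int.exists_gcd_one hg
    have hg' : ((Int.gcd x x' : ℕ) : ℤ) ≠ 0 := by exact_mod_cast hg.ne'
    generalize ((Int.gcd x x' : ℕ) : ℤ) = G at ha hb hg'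
    obtain ⟨u, v, huv⟩ := Int.isCoprime_iff_gcd_eq_one.2 hab
    have h2 : a * y' = b * y := by
      apply mul_right_cancel₀ hg'
      rw [ha, hb] at h
      linear_combination h
    refine ⟨a, b, G, u * y + v * y', ?_, ha, by linear_combination -y * huv - v * h2, hb,
      by linear_combination -y' * huv + u * h2, hg'⟩
    by_contra hc
    push Not at hc
    rw [hc.1, hc.2] at huv
    simp at huv
  by_cases h1 : x ≠ 0 ∨ x' ≠ 0
  · obtain ⟨a, b, d1, d2, a1, a2, a3, a4, a5, a6⟩ := aux x y x' y' h h1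
    exact ⟨a, b, d1, d2, a1, a2, a3, a4, a5, fun h => absurd h.1 a6⟩
  by_cases h2 : y ≠ 0 ∨ y' ≠ 0
  · obtain ⟨a, b, d1, d2, a1, a2, a3, a4, a5, a6⟩ := aux y x y' x' (by linarith) h2
    exact ⟨a, b, d2, d1, a1, a3, a2, a5, a4, fun h => absurd h.2 a6⟩
  push Not at h1 h2
  exact ⟨1, 0, 0, 0, by simp, by simp [h1.1], by simp [h2.1], by simp [h1.2], by simp [h2.2],
    by simp⟩

lemma mx_bound {N : ℕ} {a b d : ℤ} (h1 : |a * d| ≤ N) (h2 : |b * d| ≤ N) :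
    |d| * mx (a, b) ≤ N := by
  rw [abs_mul] at h1 h2
  unfold mx
  rcases le_total a.natAbs b.natAbs with h | h
  · rw [max_eq_right h, Int.natCast_natAbs]; linarith
  · rw [max_eq_left h, Int.natCast_natAbs]; linarith

lemma mx_le {N m : ℕ} {d1 d2 : ℤ} (q : ℕ) (h1 : |d1| * m ≤ N) (h2 : |d2| * m ≤ N)
    (q1 : (q : ℤ) ∣ d1) (q2 : (q : ℤ) ∣ d2) (h : ¬ (d1 = 0 ∧ d2 = 0)) : q * m ≤ N := by
  have hm : (0 : ℤ) ≤ m := by positivity
  have : (q : ℤ) * m ≤ N := by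
    by_cases h3 : d1 = 0
    · have h4 : d2 ≠ 0 := fun h4 => h ⟨h3, h4⟩
      have := Int.le_of_dvd (abs_pos.2 h4) ((dvd_abs _ _).2 q2)
      nlinarith
    · have := Int.le_of_dvd (abs_pos.2 h3) ((dvd_abs _ _).2 q1)
      nlinarith
  exact_mod_cast this

/-- parallel pairs in a box -/
lemma par_count (N L : ℕ) (hN : 0 < N) (hL : N < 2 ^ L) (S : Finset ((ℤ × ℤ) × (ℤ × ℤ)))
    (hS : ∀ s ∈ S, |s.1.1| ≤ N ∧ |s.1.2| ≤ N ∧ |s.2.1| ≤ N ∧ |s.2.2| ≤ N ∧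
      s.1.1 * s.2.2 = s.2.1 * s.1.2) : (S.card : ℝ) ≤ 648 * L * (N : ℝ) ^ 2 := by
  classical
  have h1 := card_le_sum_cover S (Pset N)
    (fun κ s => ∃ d ∈ Dbox N (mx κ) 1, s = ((κ.1 * d.1, κ.1 * d.2), (κ.2 * d.1, κ.2 * d.2)))
    (fun κ => 9 * (N : ℝ) ^ 2 * (1 / (mx κ : ℝ) ^ 2)) (by
      rintro ⟨⟨x, y⟩, ⟨x', y'⟩⟩ hs
      obtain ⟨b1, b2, b3, b4, b5⟩ := hS _ hs
      obtain ⟨a, b, d1, d2, a1, a2, a3, a4, a5, a6⟩ := par_exists x y x' y' b5
      subst a2 a3 a4 a5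
      have m1 : 1 ≤ mx (a, b) := by unfold mx; omega
      have c1 := mx_bound b1 b3
      have c2 := mx_bound b2 b4
      refine ⟨(a, b), mem_Pset.2 ⟨m1, ?_⟩, (d1, d2),
        mem_product.2 ⟨(mem_Dline m1).2 ⟨c1, by simp⟩, (mem_Dline m1).2 ⟨c2, by simp⟩⟩, rfl⟩
      by_cases hd : d1 = 0 ∧ d2 = 0
      · obtain ⟨rfl, rfl⟩ := a6 hd
        exact hN
      · simpa using mx_le 1 c1 c2 (by simp) (by simp) hd) (by
      intro κ hκ
      obtain ⟨m1, m2⟩ := mem_Pset.1 hκ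
      have h2 := card_Dbox N (mx κ) 1 m1 le_rfl (by simpa using m2)
      have h3 : (S.filter fun s => ∃ d ∈ Dbox N (mx κ) 1,
          s = ((κ.1 * d.1, κ.1 * d.2), (κ.2 * d.1, κ.2 * d.2))).card ≤ (Dbox N (mx κ) 1).card := by
        refine le_trans (card_le_card ?_) (card_image_le
          (f := fun d : ℤ × ℤ => ((κ.1 * d.1, κ.1 * d.2), (κ.2 * d.1, κ.2 * d.2))))
        intro s hs
        obtain ⟨d, hd, rfl⟩ := (mem_filter.1 hs).2
        exact mem_image_of_mem _ hd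
      calc _ ≤ ((Dbox N (mx κ) 1).card : ℝ) := by exact_mod_cast h3
        _ ≤ _ := h2
        _ = _ := by push_cast; ring)
  rw [← mul_sum] at h1
  have := sum1 N L hL
  calc _ ≤ _ := h1
    _ ≤ 9 * (N : ℝ) ^ 2 * (72 * L) := mul_le_mul_of_nonneg_left this (by positivity)
    _ = _ := by ring

end Vale.Agent.P036
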