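import Vale.Agent.P036.Stage

namespace Vale.Agent.P036
open Finset

lemma sum_inv_cube (a : Fin 3 → Fin 3 → ℤ) (m M p L : ℕ) [NeZero m] (hmM : m ≤ M) (hp : 0 < p)
    (hcop : Nat.Coprime m p) (K : Finset (Fin 3 → ℤ))
    (hK : ∀ κ ∈ K, InL a m κ ∧ sig κ ≠ 0 ∧ (p : ℤ) ∣ sig κ ∧ M * |sig κ| ≤ nrm κ ∧
      nrm κ < 2 ^ L) :
    ∑ κ ∈ K, 1 / (nrm κ : ℝ) ^ 3 ≤
      8 * ((Dset a m).card / (m : ℝ) ^ 3 * (18 / (M * p))) * L := by
  have hm : 0 < m := Nat.pos_of_ne_zero (NeZero.ne m)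
  have hM : 0 < M := lt_of_lt_of_le hm hmM
  have hMr : (0 : ℝ) < M := by exact_mod_cast hM
  have hge : ∀ κ ∈ K, M ≤ nrm κ := by
    intro κ hκ
    obtain ⟨_, h2, _, h4, _⟩ := hK κ hκ
    have h5 : 1 ≤ |sig κ| := Int.one_le_abs h2
    have h6 : (M : ℤ) ≤ nrm κ := by
      have : (0 : ℤ) ≤ M := by positivity
      nlinarith
    exact_mod_cast h6
  apply dyad K nrm (fun _ => 1) _ L (fun _ _ => zero_le_one)
  · intro κ hκ
    exact ⟨le_trans hM (hge κ hκ), (hK κ hκ).2.2.2.2⟩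
  · intro t ht
    rw [sum_const, nsmul_eq_mul, mul_one]
    rcases (K.filter fun κ => nrm κ ≤ t).eq_empty_or_nonempty with h | ⟨κ0, h0⟩
    · rw [h]; simp only [card_empty, Nat.cast_zero]; positivity
    have hmt : m ≤ t := hmM.trans ((hge κ0 (mem_filter.1 h0).1).trans (mem_filter.1 h0).2)
    have := sub_count a m p t hp hcop hmt ((t : ℝ) / M) (by positivity)
      (K.filter fun κ => nrm κ ≤ t) (by
        intro κ hκ
        obtain ⟨h1, h2⟩ := mem_filter.1 hκ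
        obtain ⟨a1, a2, a3, a4, _⟩ := hK κ h1
        unfold nrm at h2
        refine ⟨a1, by rw [Int.abs_eq_natAbs]; omega, by rw [Int.abs_eq_natAbs]; omega, a2, a3, ?_⟩
        rw [le_div_iff₀ hMr]
        have h3 : (M : ℤ) * |sig κ| ≤ t := a4.trans (by unfold nrm; exact_mod_cast h2)
        have h4 : (M : ℝ) * ((|sig κ| : ℤ) : ℝ) ≤ t := by exact_mod_cast h3
        linarith)
    refine this.trans (le_of_eq ?_)
    field_simp

lemma nrm_le_of_cr {N : ℕ} {X Y κ : Fin 3 → ℤ} {g : ℤ} (hX : X ∈ box 0 N) (hY : Y ∈ box 0 N)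
    (hg : g ≠ 0) (hc : IsCr X Y g κ) (i : Fin 3) : |κ i| ≤ (N : ℤ) ^ 2 := by
  have h1 : |cr X Y i| ≤ (N : ℤ) ^ 2 := by
    have x0 := mem_box.1 hX 0
    have x1 := mem_box.1 hX 1
    have x2 := mem_box.1 hX 2
    have y0 := mem_box.1 hY 0
    have y1 := mem_box.1 hY 1
    have y2 := mem_box.1 hY 2
    have aux : ∀ u v w z : ℤ, (0 ≤ u ∧ u < 0 + N) → (0 ≤ v ∧ v < 0 + N) → (0 ≤ w ∧ w < 0 + N) →
        (0 ≤ z ∧ z < 0 + N) → |u * v - w * z| ≤ (N : ℤ) ^ 2 := by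
      intro u v w z hu hv hw hz
      have a1 : u * v ≤ N * N := mul_le_mul (by linarith) (by linarith) hv.1 (by linarith)
      have a2 : w * z ≤ N * N := mul_le_mul (by linarith) (by linarith) hz.1 (by linarith)
      have a3 := mul_nonneg hu.1 hv.1
      have a4 := mul_nonneg hw.1 hz.1
      rw [abs_le]; constructor <;> nlinarith
    fin_cases i
    · exact aux _ _ _ _ x1 y2 x2 y1
    · exact aux _ _ _ _ x2 y0 x0 y2
    · exact aux _ _ _ _ x0 y1 x1 y0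
  rw [isCr_iff.1 hc i, abs_mul] at h1
  have : 1 ≤ |g| := Int.one_le_abs hg
  nlinarith [abs_nonneg (κ i)]

lemma slab {M N T : ℕ} {Z κ : Fin 3 → ℤ} (hZ : Z ∈ box (2 * M * N) N) (hN : 0 < N) (hTN : T ≤ N)
    (h : 2 * |dot κ Z| ≤ T) (hσ : sig κ ≠ 0) : M * |sig κ| ≤ nrm κ := by
  have z0 := mem_box.1 hZ 0
  have z1 := mem_box.1 hZ 1
  have z2 := mem_box.1 hZ 2
  have hn : (nrm κ : ℤ) = |κ 0| + |κ 1| + |κ 2| := by unfold nrm; push_cast; rfl
  have aux : ∀ k z : ℤ, (2 * M * N ≤ z ∧ z < 2 * M * N + N) → |k * (z - 2 * M * N)| ≤ |k| * N := by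
    intro k z hz
    rw [abs_mul]
    apply mul_le_mul_of_nonneg_left _ (abs_nonneg _)
    rw [abs_le]; constructor <;> linarith [hz.1, hz.2]
  have b0 := aux (κ 0) _ z0
  have b1 := aux (κ 1) _ z1
  have b2 := aux (κ 2) _ z2
  have e : 2 * M * N * sig κ = dot κ Z - (κ 0 * (Z 0 - 2 * M * N) + κ 1 * (Z 1 - 2 * M * N) +
      κ 2 * (Z 2 - 2 * M * N)) := by unfold sig dot; ring
  have h1 : 1 ≤ nrm κ := by
    unfold sig at hσ; unfold nrm; omega
  have h1' : (1 : ℤ) ≤ nrm κ := by exact_mod_cast h1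
  have hN' : (0 : ℤ) < N := by exact_mod_cast hN
  have hT' : (T : ℤ) ≤ N := by exact_mod_cast hTN
  have h2 : |2 * M * N * sig κ| ≤ 2 * nrm κ * N := by
    rw [e]
    have c1 := abs_sub (dot κ Z) (κ 0 * (Z 0 - 2 * M * N) + κ 1 * (Z 1 - 2 * M * N) +
      κ 2 * (Z 2 - 2 * M * N))
    have c2 := abs_add_three (κ 0 * (Z 0 - 2 * M * N)) (κ 1 * (Z 1 - 2 * M * N))
      (κ 2 * (Z 2 - 2 * M * N))
    have c3 := abs_nonneg (dot κ Z)
    nlinarith
  rw [abs_mul, abs_of_nonneg (by positivity : (0 : ℤ) ≤ 2 * M * N)] at h2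
  apply le_of_mul_le_mul_right _ (by positivity : (0 : ℤ) < 2 * N)
  nlinarith

lemma count_II {l k p : ℕ} [NeZero l] [Fact p.Prime] (hl : l.Prime) (ν : ZMod p) (R' N T L : ℕ)
    (hcop : Nat.Coprime l p) (hN : N = l ^ k * p * R') (hN0 : 0 < N) (hT : T < l ^ k)
    (hTN : T ≤ N) (hL : 3 * N ^ 2 < 2 ^ L) (a : Fin 3 → Fin 3 → ℤ) (lev : ℝ)
    (hD : ∀ j ≤ k, ((Dset a (l ^ j)).card : ℝ) ≤ lev * (l : ℝ) ^ j)
    (S : Finset ((_ : Seed (l ^ k) p) × Tri))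
    (hS : ∀ s ∈ S, s.2 ∈ Wset ν N T s.1 a ∧ sig (cr s.2.1 s.2.2.1) ≠ 0) :
    (S.card : ℝ) ≤ 343 ^ 3 * 288 * (k + 1) * L * lev * (N : ℝ) ^ 6 / (l : ℝ) ^ k := by
  classical
  have hp : p.Prime := Fact.out
  have hlr : (0 : ℝ) < l := by exact_mod_cast hl.pos
  have hpr : (0 : ℝ) < p := by exact_mod_cast hp.pos
  set K := (box (-(N : ℤ) ^ 2) (2 * N ^ 2 + 1)).filter fun κ => (∃ e, dot κ e = 1) ∧ sig κ ≠ 0 ∧
    ((l ^ k : ℕ) : ℤ) * |sig κ| ≤ nrm κ ∧ nrm κ < 2 ^ L with hK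
  have h1 := card_le_sum_cover S K (fun κ s => ∃ g, g ≠ 0 ∧ IsCr s.2.1 s.2.2.1 g κ)
    (fun κ => ((Kset a κ (l ^ k)).card * 343 * (N : ℝ) ^ 2 / ((l ^ k : ℕ) ^ 2 * nrm κ)) ^ 2 *
      ((if (p : ℤ) ∣ sig κ then (p : ℝ) else 1) * (343 * (N : ℝ) ^ 2 / nrm κ)))
    (by
      intro s hs
      obtain ⟨w, hσ⟩ := hS s hs
      rw [mem_Wset] at w
      obtain ⟨g, κ, e, hg, hc, he⟩ := exists_prim _ (w.2.2.1 0)
      have hc' := isCr_iff.2 hc
      refine ⟨κ, mem_filter.2 ⟨mem_box.2 fun i => ?_, ⟨e, he⟩, ?_⟩, g, hg.ne', hc'⟩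
      · have := abs_le.1 (nrm_le_of_cr w.1.1 w.1.2.1 hg.ne' hc' i)
        push_cast
        constructor <;> linarith [this.1, this.2]
      · have hσ' : sig κ ≠ 0 := by
          intro h
          apply hσ
          unfold sig at h ⊢
          rw [hc, hc, hc]
          linear_combination g * h
        refine ⟨hσ', slab w.1.2.2 hN0 hTN (tau_le hg.ne' hc' w.2.2.2) hσ', ?_⟩
        have b0 := nrm_le_of_cr w.1.1 w.1.2.1 hg.ne' hc' 0
        have b1 := nrm_le_of_cr w.1.1 w.1.2.1 hg.ne' hc' 1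
        have b2 := nrm_le_of_cr w.1.1 w.1.2.1 hg.ne' hc' 2
        have hn : (nrm κ : ℤ) = |κ 0| + |κ 1| + |κ 2| := by unfold nrm; push_cast; rfl
        have : (nrm κ : ℤ) ≤ ((3 * N ^ 2 : ℕ) : ℤ) := by push_cast; linarith
        have : nrm κ ≤ 3 * N ^ 2 := by exact_mod_cast this
        omega)
    (by
      intro κ hκ
      obtain ⟨e, he⟩ := (mem_filter.1 hκ).2.1
      apply fiber_bound ν R' N T (Nat.Coprime.pow_left k hcop) hN hN0 hT a κ e he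
      intro s hs
      obtain ⟨h1, h2⟩ := mem_filter.1 hs
      exact ⟨(hS s h1).1, h2⟩)
  refine h1.trans ?_
  have h2 : ∀ κ ∈ K,
      ((Kset a κ (l ^ k)).card * 343 * (N : ℝ) ^ 2 / ((l ^ k : ℕ) ^ 2 * nrm κ)) ^ 2 *
      ((if (p : ℤ) ∣ sig κ then (p : ℝ) else 1) * (343 * (N : ℝ) ^ 2 / nrm κ)) ≤
      343 ^ 3 * (N : ℝ) ^ 6 * ∑ j ∈ range (k + 1), ((l : ℝ) ^ j) ^ 2 *
        ((if InL a (l ^ j) κ then 1 / (nrm κ : ℝ) ^ 3 else 0) +
          p * (if InL a (l ^ j) κ ∧ (p : ℤ) ∣ sig κ then 1 / (nrm κ : ℝ) ^ 3 else 0)) := by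
    intro κ _
    have hb := K_bound a κ l k hl
    have e1 : ∑ j ∈ range (k + 1), ((l : ℝ) ^ j) ^ 2 *
        ((if InL a (l ^ j) κ then 1 / (nrm κ : ℝ) ^ 3 else 0) +
          p * (if InL a (l ^ j) κ ∧ (p : ℤ) ∣ sig κ then 1 / (nrm κ : ℝ) ^ 3 else 0)) =
        (∑ j ∈ range (k + 1), if InL a (l ^ j) κ then ((l : ℝ) ^ j) ^ 2 else 0) *
          ((1 + if (p : ℤ) ∣ sig κ then (p : ℝ) else 0) / (nrm κ : ℝ) ^ 3) := by
      rw [sum_mul]
      apply sum_congr rfl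
      intro j _
      by_cases h1 : InL a (l ^ j) κ <;> by_cases h2 : (p : ℤ) ∣ sig κ <;>
        simp only [h1, h2, and_self, and_true, and_false, if_true, if_false] <;> ring
    rw [e1]
    generalize (∑ j ∈ range (k + 1), if InL a (l ^ j) κ then ((l : ℝ) ^ j) ^ 2 else 0) = Sg at hb
    have hW : (if (p : ℤ) ∣ sig κ then (p : ℝ) else 1) ≤
        1 + if (p : ℤ) ∣ sig κ then (p : ℝ) else 0 := by split_ifs <;> linarith
    have hW0 : (0 : ℝ) ≤ if (p : ℤ) ∣ sig κ then (p : ℝ) else 1 := by split_ifs <;> positivity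
    generalize (if (p : ℤ) ∣ sig κ then (p : ℝ) else 1) = W at hW hW0
    generalize (1 + if (p : ℤ) ∣ sig κ then (p : ℝ) else 0) = W' at hW
    generalize ((Kset a κ (l ^ k)).card : ℝ) = Kc at hb
    push_cast
    have hb' : Kc ^ 2 / ((l : ℝ) ^ k) ^ 4 ≤ Sg := by
      rw [div_le_iff₀ (by positivity)]; linarith
    calc _ = 343 ^ 3 * (N : ℝ) ^ 6 * (Kc ^ 2 / ((l : ℝ) ^ k) ^ 4 * (W / (nrm κ : ℝ) ^ 3)) := by
          by_cases hn : (nrm κ : ℝ) = 0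
          · simp [hn]
          · field_simp
      _ ≤ _ := by
          apply mul_le_mul_of_nonneg_left _ (by positivity)
          exact mul_le_mul hb' (div_le_div_of_nonneg_right hW (by positivity)) (by positivity)
            (le_trans (by positivity) hb')
  refine (sum_le_sum h2).trans ?_
  rw [← mul_sum, sum_comm]
  have h3 : ∀ j ∈ range (k + 1), ∑ κ ∈ K, ((l : ℝ) ^ j) ^ 2 *
        ((if InL a (l ^ j) κ then 1 / (nrm κ : ℝ) ^ 3 else 0) +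
          p * (if InL a (l ^ j) κ ∧ (p : ℤ) ∣ sig κ then 1 / (nrm κ : ℝ) ^ 3 else 0)) ≤
        288 * L * lev / (l : ℝ) ^ k := by
    intro j hj
    have hjk : j ≤ k := Nat.lt_succ_iff.1 (mem_range.1 hj)
    have hle : l ^ j ≤ l ^ k := Nat.pow_le_pow_right hl.pos hjk
    rw [← mul_sum, sum_add_distrib, ← mul_sum, ← sum_filter, ← sum_filter]
    have s1 := sum_inv_cube a (l ^ j) (l ^ k) 1 L hle one_pos (by simp)
      (K.filter fun κ => InL a (l ^ j) κ) (by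
        intro κ hκ
        obtain ⟨h1, h2⟩ := mem_filter.1 hκ
        obtain ⟨_, a2, a3, a4⟩ := (mem_filter.1 h1).2
        exact ⟨h2, a2, by simp, a3, a4⟩)
    have s2 := sum_inv_cube a (l ^ j) (l ^ k) p L hle hp.pos (Nat.Coprime.pow_left j hcop)
      (K.filter fun κ => InL a (l ^ j) κ ∧ (p : ℤ) ∣ sig κ) (by
        intro κ hκ
        obtain ⟨h1, h2⟩ := mem_filter.1 hκ
        obtain ⟨_, a2, a3, a4⟩ := (mem_filter.1 h1).2
        exact ⟨h2.1, a2, h2.2, a3, a4⟩)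
    have hDj := hD j hjk
    generalize ((Dset a (l ^ j)).card : ℝ) = D at s1 s2 hDj
    push_cast at s1 s2
    calc _ ≤ ((l : ℝ) ^ j) ^ 2 * (8 * (D / ((l : ℝ) ^ j) ^ 3 * (18 / ((l : ℝ) ^ k * 1))) * L +
          p * (8 * (D / ((l : ℝ) ^ j) ^ 3 * (18 / ((l : ℝ) ^ k * p))) * L)) :=
          mul_le_mul_of_nonneg_left (add_le_add s1 (mul_le_mul_of_nonneg_left s2 hpr.le))
            (by positivity)
      _ = 288 * L * (D / (l : ℝ) ^ j) / (l : ℝ) ^ k := by field_simp; ring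
      _ ≤ _ := by
          apply div_le_div_of_nonneg_right _ (by positivity)
          apply mul_le_mul_of_nonneg_left _ (by positivity)
          rw [div_le_iff₀ (by positivity)]; exact hDj
  calc _ ≤ 343 ^ 3 * (N : ℝ) ^ 6 * ∑ _j ∈ range (k + 1), 288 * L * lev / (l : ℝ) ^ k :=
        mul_le_mul_of_nonneg_left (sum_le_sum h3) (by positivity)
    _ = _ := by
        rw [sum_const, card_range, nsmul_eq_mul]
        push_cast
        ring

end Vale.Agent.P036
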