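import Vale.Agent.P036.Stage

namespace Vale.Agent.P036
open Finset

def HasRank {C K : Type} [CommRing K] (r : ℕ) (Ψ : C → C → C → K) : Prop :=
  ∃ (ι : Type) (_ : Fintype ι), Fintype.card ι = r ∧
    ∃ f g h : ι → C → K, ∀ x y z, Ψ x y z = ∑ s, f s x * g s y * h s z

lemma HasRank.add {C K : Type} [CommRing K] {r r' : ℕ} {Ψ Ψ' : C → C → C → K}
    (h : HasRank r Ψ) (h' : HasRank r' Ψ') :
    HasRank (r + r') (fun x y z => Ψ x y z + Ψ' x y z) := by
  obtain ⟨ι, _, hc, f, g, h, e⟩ := h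
  obtain ⟨ι', _, hc', f', g', h', e'⟩ := h'
  refine ⟨ι ⊕ ι', inferInstance, by simp [hc, hc'], Sum.elim f f', Sum.elim g g', Sum.elim h h',
    fun x y z => ?_⟩
  simp [e, e']

lemma HasRank.neg {C K : Type} [CommRing K] {r : ℕ} {Ψ : C → C → C → K}
    (h : HasRank r Ψ) : HasRank r (fun x y z => - Ψ x y z) := by
  obtain ⟨ι, _, hc, f, g, h, e⟩ := h
  refine ⟨ι, inferInstance, hc, fun s x => - f s x, g, h, fun x y z => ?_⟩
  simp [e]

lemma HasRank.sub {C K : Type} [CommRing K] {r r' : ℕ} {Ψ Ψ' : C → C → C → K}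
    (h : HasRank r Ψ) (h' : HasRank r' Ψ') :
    HasRank (r + r') (fun x y z => Ψ x y z - Ψ' x y z) := by
  simpa only [sub_eq_add_neg] using h.add h'.neg

lemma HasRank.mul {C K : Type} [CommRing K] {r r' : ℕ} {Ψ Ψ' : C → C → C → K}
    (h : HasRank r Ψ) (h' : HasRank r' Ψ') :
    HasRank (r * r') (fun x y z => Ψ x y z * Ψ' x y z) := by
  obtain ⟨ι, _, hc, f, g, h, e⟩ := h
  obtain ⟨ι', _, hc', f', g', h', e'⟩ := h'
  refine ⟨ι × ι', inferInstance, by simp [hc, hc'], fun s x => f s.1 x * f' s.2 x,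
    fun s x => g s.1 x * g' s.2 x, fun s x => h s.1 x * h' s.2 x, fun x y z => ?_⟩
  simp only [e, e', sum_mul_sum, Fintype.sum_prod_type]
  exact sum_congr rfl fun _ _ => sum_congr rfl fun _ _ => by ring

lemma rank_x {C K : Type} [CommRing K] (φ : C → K) : HasRank 1 (fun x _ _ => φ x) :=
  ⟨Unit, inferInstance, rfl, fun _ => φ, fun _ _ => 1, fun _ _ => 1, by simp⟩

lemma rank_y {C K : Type} [CommRing K] (φ : C → K) : HasRank 1 (fun _ y _ => φ y) :=
  ⟨Unit, inferInstance, rfl, fun _ _ => 1, fun _ => φ, fun _ _ => 1, by simp⟩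

lemma rank_z {C K : Type} [CommRing K] (φ : C → K) : HasRank 1 (fun _ _ z => φ z) :=
  ⟨Unit, inferInstance, rfl, fun _ _ => 1, fun _ _ => 1, fun _ => φ, by simp⟩

lemma rank_det {C K : Type} [CommRing K] (A : C → C → C → Matrix (Fin 3) (Fin 3) K)
    (h : ∀ i j, HasRank 2 (fun x y z => A x y z i j)) :
    HasRank 48 (fun x y z => (A x y z).det) := by
  simp only [Matrix.det_fin_three]
  exact (((((((h 0 0).mul (h 1 1)).mul (h 2 2)).sub (((h 0 0).mul (h 1 2)).mul (h 2 1))).sub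
    (((h 0 1).mul (h 1 0)).mul (h 2 2))).add (((h 0 1).mul (h 1 2)).mul (h 2 0))).add
    (((h 0 2).mul (h 1 0)).mul (h 2 1))).sub (((h 0 2).mul (h 1 1)).mul (h 2 0))

theorem exists_phi : ∃ r : ℕ, ∀ l : ℕ, l.Prime → 3 < l →
    ∃ f g h : Fin r → Fin (l ^ 3) → ℤ, (∀ s x, (0 ≤ f s x ∧ f s x < l) ∧ (0 ≤ g s x ∧ g s x < l) ∧
      (0 ≤ h s x ∧ h s x < l)) ∧ ∀ x : Fin 3 → Fin (l ^ 3), Function.Injective x →
      ¬ (l : ℤ) ∣ ∑ s, dot (cr (fun i => f s (x i)) (fun i => g s (x i))) (fun i => h s (x i)) := by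
  refine ⟨48 * 48 * 48, fun l hl hl3 => ?_⟩
  have : Fact l.Prime := ⟨hl⟩
  let F := GaloisField l 3
  let b := Module.finBasisOfFinrankEq (ZMod l) F (GaloisField.finrank l (by norm_num : (3 : ℕ) ≠ 0))
  let L := Algebra.leftMulMatrix b
  let e : Fin (l ^ 3) ≃ F := (Finite.equivFinOfCardEq (GaloisField.card l 3 (by norm_num))).symm
  have hn : ∀ a : F, a ≠ 0 → (L a).det ≠ 0 := by
    intro a ha
    rw [← Algebra.norm_eq_matrix_det]
    exact Algebra.norm_ne_zero_iff.2 ha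
  have hanti : ∀ a c : F, (L (a - c)).det = - (L (c - a)).det := by
    intro a c
    rw [← neg_sub c a, map_neg, Matrix.det_neg]
    simp only [Fintype.card_fin]
    ring
  have r1 : HasRank 48 (fun x y (_ : F) => (L (y - x)).det) := by
    apply rank_det
    intro i j
    simp only [map_sub, Matrix.sub_apply]
    exact (rank_y fun y => L y i j).sub (rank_x fun x => L x i j)
  have r2 : HasRank 48 (fun x (_ : F) z => (L (z - x)).det) := by
    apply rank_det
    intro i j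
    simp only [map_sub, Matrix.sub_apply]
    exact (rank_z fun y => L y i j).sub (rank_x fun x => L x i j)
  have r3 : HasRank 48 (fun (_ : F) y z => (L (z - y)).det) := by
    apply rank_det
    intro i j
    simp only [map_sub, Matrix.sub_apply]
    exact (rank_z fun y => L y i j).sub (rank_y fun x => L x i j)
  obtain ⟨ι, _, hc, f, g, h, hΦ⟩ := (r1.mul r2).mul r3
  let q : Fin (48 * 48 * 48) ≃ ι := (Fintype.equivFinOfCardEq hc).symm
  have hv : ∀ t : ZMod l, (0 : ℤ) ≤ t.val ∧ ((t.val : ℕ) : ℤ) < l := fun t =>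
    ⟨by positivity, by exact_mod_cast ZMod.val_lt t⟩
  refine ⟨fun s x => (f (q s) (e x)).val, fun s x => (g (q s) (e x)).val,
    fun s x => (h (q s) (e x)).val, fun s x => ⟨hv _, hv _, hv _⟩, fun x hx hd => ?_⟩
  rw [← ZMod.intCast_zmod_eq_zero_iff_dvd] at hd
  simp only [dot, cr, Matrix.cons_val_zero, Matrix.cons_val_one, Matrix.cons_val] at hd
  push_cast at hd
  simp only [ZMod.natCast_val, ZMod.cast_id', id_eq] at hd
  rw [q.sum_comp (fun s => (f s (e (x 1)) * g s (e (x 2)) - f s (e (x 2)) * g s (e (x 1))) *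
      h s (e (x 0)) + (f s (e (x 2)) * g s (e (x 0)) - f s (e (x 0)) * g s (e (x 2))) *
      h s (e (x 1)) + (f s (e (x 0)) * g s (e (x 1)) - f s (e (x 1)) * g s (e (x 0))) *
      h s (e (x 2)))] at hd
  simp only [sub_mul, sum_add_distrib, sum_sub_distrib, ← hΦ] at hd
  have d01 : e (x 1) - e (x 0) ≠ 0 := sub_ne_zero.2 (e.injective.ne (hx.ne (by decide)))
  have d02 : e (x 2) - e (x 0) ≠ 0 := sub_ne_zero.2 (e.injective.ne (hx.ne (by decide)))
  have d12 : e (x 2) - e (x 1) ≠ 0 := sub_ne_zero.2 (e.injective.ne (hx.ne (by decide)))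
  rw [hanti (e (x 0)) (e (x 1)), hanti (e (x 0)) (e (x 2)), hanti (e (x 1)) (e (x 2))] at hd
  have h6 : (6 : ZMod l) ≠ 0 := by
    intro h6
    have : l ∣ 6 := (ZMod.natCast_eq_zero_iff 6 l).1 (by exact_mod_cast h6)
    rcases (Nat.Prime.dvd_mul hl (m := 2) (n := 3)).1 this with h7 | h7 <;>
      have := Nat.le_of_dvd (by norm_num) h7 <;> omega
  apply mul_ne_zero h6 (mul_ne_zero (mul_ne_zero (hn _ d01) (hn _ d02)) (hn _ d12))
  linear_combination hd

end Vale.Agent.P036
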