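import Vale.Agent.P036.Basic

namespace Vale.Agent.P036
open Finset

def dot (a b : Fin 3 → ℤ) : ℤ := a 0 * b 0 + a 1 * b 1 + a 2 * b 2

def nrm (κ : Fin 3 → ℤ) : ℕ := (κ 0).natAbs + (κ 1).natAbs + (κ 2).natAbs

def IsCr (X Y : Fin 3 → ℤ) (g : ℤ) (κ : Fin 3 → ℤ) : Prop :=
  X 1 * Y 2 - X 2 * Y 1 = g * κ 0 ∧ X 2 * Y 0 - X 0 * Y 2 = g * κ 1 ∧
    X 0 * Y 1 - X 1 * Y 0 = g * κ 2

noncomputable def box (o : ℤ) (N : ℕ) : Finset (Fin 3 → ℤ) := Fintype.piFinset fun _ => Ico o (o + N)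

lemma mem_box {o : ℤ} {N : ℕ} {X : Fin 3 → ℤ} : X ∈ box o N ↔ ∀ i, o ≤ X i ∧ X i < o + N := by
  simp [box]

lemma card_box (o : ℤ) (N : ℕ) : (box o N).card = N ^ 3 := by
  simp [box]

lemma IsCr.dotX {X Y κ : Fin 3 → ℤ} {g : ℤ} (hg : g ≠ 0) (hc : IsCr X Y g κ) : dot κ X = 0 := by
  obtain ⟨h0, h1, h2⟩ := hc
  apply mul_left_cancel₀ hg
  unfold dot
  linear_combination -X 0 * h0 - X 1 * h1 - X 2 * h2

lemma IsCr.dotY {X Y κ : Fin 3 → ℤ} {g : ℤ} (hg : g ≠ 0) (hc : IsCr X Y g κ) : dot κ Y = 0 := by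
  obtain ⟨h0, h1, h2⟩ := hc
  apply mul_left_cancel₀ hg
  unfold dot
  linear_combination -Y 0 * h0 - Y 1 * h1 - Y 2 * h2

lemma reduce (X Y κ : Fin 3 → ℤ) (g : ℤ) (hg : g ≠ 0) (hκ : 0 < nrm κ) (hc : IsCr X Y g κ)
    (N : ℕ) (hX : ∀ i, |X i| ≤ N) (hY : ∀ i, |Y i| ≤ N) (E : Fin 3 → ℤ) (h0 : 0 ≤ dot κ E)
    (h1 : dot κ E ≤ nrm κ * N) : ∃ a b : ℤ, ∀ i, |E i - a * X i - b * Y i| ≤ 3 * N := by
  obtain ⟨c0, c1, c2⟩ := hc
  set s : Fin 3 → ℤ := fun i => (κ i).sign with hs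
  have hs1 : ∀ i, |s i| ≤ 1 := by
    intro i
    simp only [hs]
    rcases lt_trichotomy (κ i) 0 with h | h | h
    · rw [Int.sign_eq_neg_one_of_neg h]; simp
    · rw [h]; simp
    · rw [Int.sign_eq_one_of_pos h]; simp
  have hn : (nrm κ : ℤ) = κ 0 * s 0 + κ 1 * s 1 + κ 2 * s 2 := by
    simp only [nrm, hs, Int.mul_sign_self]; push_cast; rfl
  set D : ℤ := g * nrm κ with hD
  have hn0 : (0 : ℤ) < nrm κ := by exact_mod_cast hκ
  have hD0 : D ≠ 0 := mul_ne_zero hg hn0.ne'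
  set A : ℤ := (E 1 * Y 2 - E 2 * Y 1) * s 0 + (E 2 * Y 0 - E 0 * Y 2) * s 1 +
    (E 0 * Y 1 - E 1 * Y 0) * s 2 with hA
  set B : ℤ := (X 1 * E 2 - X 2 * E 1) * s 0 + (X 2 * E 0 - X 0 * E 2) * s 1 +
    (X 0 * E 1 - X 1 * E 0) * s 2 with hB
  have key : ∀ i, D * E i = A * X i + B * Y i + g * dot κ E * s i := by
    intro i
    rw [hD, hn, hA, hB]
    unfold dot
    fin_cases i <;> simp only [Fin.zero_eta, Fin.mk_one, Fin.reduceFinMk, Fin.isValue]
    · linear_combination (E 1 * s 0 - E 0 * s 1) * c1 + (E 2 * s 0 - E 0 * s 2) * c2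
    · linear_combination (E 0 * s 1 - E 1 * s 0) * c0 + (E 2 * s 1 - E 1 * s 2) * c2
    · linear_combination (E 0 * s 2 - E 2 * s 0) * c0 + (E 1 * s 2 - E 2 * s 1) * c1
  refine ⟨A / D, B / D, fun i => ?_⟩
  have ha := Int.mul_ediv_add_emod A D
  have hb := Int.mul_ediv_add_emod B D
  have ha1 := Int.emod_nonneg A hD0
  have ha2 := Int.emod_lt_abs A hD0
  have hb1 := Int.emod_nonneg B hD0
  have hb2 := Int.emod_lt_abs B hD0
  have e1 : D * (E i - A / D * X i - B / D * Y i) =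
      A % D * X i + B % D * Y i + g * dot κ E * s i := by
    linear_combination key i - X i * ha - Y i * hb
  have hDp : 0 < |D| := abs_pos.2 hD0
  have hN : (0 : ℤ) ≤ N := by positivity
  have t1 : |A % D * X i| ≤ |D| * N := by
    rw [abs_mul, abs_of_nonneg ha1]
    exact mul_le_mul ha2.le (hX i) (abs_nonneg _) hDp.le
  have t2 : |B % D * Y i| ≤ |D| * N := by
    rw [abs_mul, abs_of_nonneg hb1]
    exact mul_le_mul hb2.le (hY i) (abs_nonneg _) hDp.le
  have t3 : |g * dot κ E * s i| ≤ |D| * N := by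
    rw [abs_mul, abs_mul, hD, abs_mul, abs_of_nonneg h0, abs_of_pos hn0]
    calc |g| * dot κ E * |s i| ≤ |g| * (nrm κ * N) * 1 :=
          mul_le_mul (mul_le_mul_of_nonneg_left h1 (abs_nonneg _)) (hs1 i) (abs_nonneg _)
            (by positivity)
      _ = _ := by ring
  have t4 : |D| * |E i - A / D * X i - B / D * Y i| ≤ |D| * (3 * N) := by
    rw [← abs_mul, e1]
    have := abs_add_three (A % D * X i) (B % D * Y i) (g * dot κ E * s i)
    linarith
  exact le_of_mul_le_mul_left t4 hDp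

lemma plane_count {R Γ : Type*} [CommRing R] [AddCommGroup Γ] (Q R' N : ℕ) (hQ : 0 < Q)
    (hN : N = Q * R') (hN0 : 0 < N) (hker : ∀ n : ℤ, (n : R) = 0 → (Q : ℤ) ∣ n)
    (φ : Γ →+ (Fin 3 → R)) (κ e X Y : Fin 3 → ℤ) (he : dot κ e = 1) (g : ℤ) (hg : g ≠ 0)
    (hc : IsCr X Y g κ) (hX : ∀ i, |X i| ≤ N) (hY : ∀ i, |Y i| ≤ N) (γ1 γ2 : Γ)
    (hX' : ∀ i, (X i : R) = φ γ1 i) (hY' : ∀ i, (Y i : R) = φ γ2 i) (z : Fin 3 → R) (τ o : ℤ)
    (S : Finset (Γ × (Fin 3 → ℤ))) (K : Finset Γ)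
    (hS : ∀ s ∈ S, s.2 ∈ box o N ∧ (∀ i, (s.2 i : R) = z i + φ s.1 i) ∧ dot κ s.2 = τ ∧
      ∀ a b : ℤ, s.1 - a • γ1 - b • γ2 ∈ K) :
    (S.card : ℝ) ≤ K.card * 343 * (N : ℝ) ^ 2 / (Q ^ 2 * nrm κ) := by
  classical
  have hκ : 0 < nrm κ := by
    rcases Nat.eq_zero_or_pos (nrm κ) with h | h
    · unfold nrm at h
      have h0 : κ 0 = 0 := by omega
      have h1 : κ 1 = 0 := by omega
      have h2 : κ 2 = 0 := by omega
      simp [dot, h0, h1, h2] at he
    · exact h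
  have hQz : (0 : ℤ) < Q := by exact_mod_cast hQ
  set I : Finset ((Fin 3 → ℤ) × ℕ) := box 0 Q ×ˢ range (nrm κ * R') with hI
  set j : (Fin 3 → ℤ) × ℕ → ℤ := fun x => dot κ x.1 % Q + Q * x.2 with hj
  set E : (Fin 3 → ℤ) × ℕ → Fin 3 → ℤ := fun x i => x.1 i + (j x - dot κ x.1) * e i with hE
  have hdE : ∀ x, dot κ (E x) = j x := by
    intro x
    simp only [hE]
    unfold dot at he ⊢
    linear_combination (j x - (κ 0 * x.1 0 + κ 1 * x.1 1 + κ 2 * x.1 2)) * he
  have hdv : ∀ x i, (Q : ℤ) ∣ E x i - x.1 i := by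
    intro x i
    simp only [hE, hj, add_sub_cancel_left]
    apply Dvd.dvd.mul_right
    have := Int.mul_ediv_add_emod (dot κ x.1) Q
    exact ⟨x.2 - dot κ x.1 / Q, by linarith⟩
  have hex : ∀ x ∈ I, ∃ a b : ℤ, ∀ i, |E x i - a * X i - b * Y i| ≤ 3 * N := by
    intro x hx
    have hx2 : x.2 < nrm κ * R' := mem_range.1 (mem_product.1 hx).2
    have h1 := Int.emod_nonneg (dot κ x.1) hQz.ne'
    have h2 := Int.emod_lt_of_pos (dot κ x.1) hQz
    apply reduce X Y κ g hg hκ hc N hX hY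
    · rw [hdE]; simp only [hj]; positivity
    · rw [hdE, hN]
      simp only [hj]
      have : (x.2 : ℤ) + 1 ≤ nrm κ * R' := by exact_mod_cast hx2
      push_cast
      nlinarith
  choose! a b hab using hex
  have hcard : (S ×ˢ I).card ≤ (K ×ˢ box (o - 3 * N) (7 * N)).card := by
    apply card_le_card_of_injOn (fun x => (x.1.1 - a x.2 • γ1 - b x.2 • γ2,
      fun i => x.1.2 i + (E x.2 i - a x.2 * X i - b x.2 * Y i)))
    · rintro ⟨s, x⟩ hx
      simp only [coe_product, Set.mem_prod, mem_coe] at hx ⊢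
      obtain ⟨h1, _, _, h4⟩ := hS s hx.1
      refine ⟨h4 _ _, mem_box.2 fun i => ?_⟩
      have h5 := mem_box.1 h1 i
      have h6 := abs_le.1 (hab x hx.2 i)
      push_cast
      constructor <;> linarith [h5.1, h5.2, h6.1, h6.2]
    · rintro ⟨s, x⟩ hx ⟨s', x'⟩ hx' hxy
      simp only [coe_product, Set.mem_prod, mem_coe, Prod.mk.injEq] at hx hx' hxy
      obtain ⟨_, h2, h3, _⟩ := hS s hx.1
      obtain ⟨_, h2', h3', _⟩ := hS s' hx'.1
      obtain ⟨e1, e2⟩ := hxy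
      have f0 := congrFun e2 0
      have f1 := congrFun e2 1
      have f2 := congrFun e2 2
      have dX := hc.dotX hg
      have dY := hc.dotY hg
      have hjj : j x = j x' := by
        rw [← hdE, ← hdE]
        unfold dot at h3 h3' dX dY ⊢
        linear_combination κ 0 * f0 + κ 1 * f1 + κ 2 * f2 - h3 + h3' + (a x - a x') * dX +
          (b x - b x') * dY
      have hEE : ∀ i, (Q : ℤ) ∣ E x i - E x' i := by
        intro i
        apply hker
        have f := congrArg (Int.cast : ℤ → R) (congrFun e2 i)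
        have f' := congrFun (congrArg φ e1) i
        simp only [map_sub, map_zsmul, Pi.sub_apply, zsmul_eq_mul, Pi.mul_apply,
          Pi.intCast_apply] at f'
        push_cast at f ⊢
        rw [h2, h2', hX', hY'] at f
        linear_combination f - f'
      have hr : x.1 = x'.1 := by
        funext i
        have d1 := hdv x i
        have d2 := hdv x' i
        have d3 : (Q : ℤ) ∣ x.1 i - x'.1 i := by
          have := ((hEE i).sub d1).add d2
          have e : x.1 i - x'.1 i = E x i - E x' i - (E x i - x.1 i) + (E x' i - x'.1 i) := by ring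
          rw [e]; exact this
        have b1 := mem_box.1 (mem_product.1 hx.2).1 i
        have b2 := mem_box.1 (mem_product.1 hx'.2).1 i
        have := Int.eq_zero_of_abs_lt_dvd d3 (by rw [abs_lt]; constructor <;> linarith [b1.1, b1.2, b2.1, b2.2])
        linarith
      have hi : x.2 = x'.2 := by
        simp only [hj, hr] at hjj
        have : (x.2 : ℤ) = x'.2 := mul_left_cancel₀ hQz.ne' (by linarith)
        exact_mod_cast this
      have hxx : x = x' := Prod.ext hr hi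
      subst hxx
      refine Prod.ext (Prod.ext ?_ ?_) rfl
      · simpa using e1
      · funext i
        have := congrFun e2 i
        simpa using this
  rw [card_product, hI, card_product, card_product, card_box, card_box, card_range] at hcard
  have hc' : (S.card : ℝ) * ((Q : ℝ) ^ 3 * (nrm κ * R')) ≤ K.card * (7 * N) ^ 3 := by
    exact_mod_cast hcard
  have hQr : (0 : ℝ) < Q := by exact_mod_cast hQ
  have hκr : (0 : ℝ) < nrm κ := by exact_mod_cast hκ
  have hNr : (0 : ℝ) < N := by exact_mod_cast hN0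
  have hNr' : (N : ℝ) = Q * R' := by exact_mod_cast hN
  rw [le_div_iff₀ (by positivity)]
  apply le_of_mul_le_mul_right _ hNr
  calc (S.card : ℝ) * (Q ^ 2 * nrm κ) * N = S.card * ((Q : ℝ) ^ 3 * (nrm κ * R')) := by
        rw [hNr']; ring
    _ ≤ _ := hc'
    _ = _ := by ring

end Vale.Agent.P036
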