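import Vale.Agent.P036.Space

namespace Vale.Agent.P036
open Finset

open Classical in
lemma sum_W {l k p : ℕ} [NeZero l] [Fact p.Prime] (hl : l.Prime) {ν : ZMod p} (hν : ¬ IsSquare ν)
    (R N T L : ℕ) (hcop : Nat.Coprime l p) (hN : N = l ^ k * p * R) (hN0 : 0 < N)
    (hT : T < l ^ k) (hTN : T ≤ N) (hL : 3 * N ^ 2 < 2 ^ L) (a : Fin 3 → Fin 3 → ℤ) (lv : ℝ)
    (hD : ∀ j ≤ k, ((Dset a (l ^ j)).card : ℝ) ≤ lv * (l : ℝ) ^ j) :
    ∑ ω ∈ Om (l ^ k) p, ((Wset ν N T ω a).card : ℝ) ≤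
      343 ^ 3 * 288 * (k + 1) * L * lv * (N : ℝ) ^ 6 / (l : ℝ) ^ k +
      (Om (l ^ k) p).card * (L * (2592 * ((l : ℝ) ^ k) ^ 2 * N ^ 3 * R ^ 2 +
        6480 * (N : ℝ) ^ 4 * R ^ 2 / p ^ 2 + 648 * (N : ℝ) ^ 4 * R)) := by
  have hL' : N < 2 ^ L := lt_of_le_of_lt (by nlinarith) hL
  have h1 := count_II hl ν R N T L hcop hN hN0 hT hTN hL a lv hD
    ((Om (l ^ k) p).sigma fun ω => (Wset ν N T ω a).filter fun t => sig (cr t.1 t.2.1) ≠ 0)
    (fun s hs => mem_filter.1 (mem_sigma.1 hs).2)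
  rw [card_sigma] at h1
  push_cast at h1
  have h2 : ∀ ω ∈ Om (l ^ k) p, ((Wset ν N T ω a).card : ℝ) ≤
      (((Wset ν N T ω a).filter fun t => sig (cr t.1 t.2.1) ≠ 0).card : ℝ) +
      L * (2592 * ((l : ℝ) ^ k) ^ 2 * N ^ 3 * R ^ 2 +
        6480 * (N : ℝ) ^ 4 * R ^ 2 / p ^ 2 + 648 * (N : ℝ) ^ 4 * R) := by
    intro ω _
    have h3 := count_0 hν R N T L (pow_pos hl.pos k) (Nat.Coprime.pow_left k hcop) hN hN0 hT hL'
      ω a ((Wset ν N T ω a).filter fun t => sig (cr t.1 t.2.1) = 0)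
      (fun t ht => mem_filter.1 ht)
    have h4 := card_filter_add_card_filter_not (s := Wset ν N T ω a)
      (fun t => sig (cr t.1 t.2.1) = 0)
    rw [← h4]
    push_cast at h3 ⊢
    linarith
  refine (sum_le_sum h2).trans ?_
  rw [sum_add_distrib, sum_const, nsmul_eq_mul]
  linarith

open Classical in
lemma sum_B3 {l k p : ℕ} [NeZero l] [Fact p.Prime] (hl : l.Prime) {ν : ZMod p}
    (hν : ¬ IsSquare ν) (R N T L j0 : ℕ) (hcop : Nat.Coprime l p) (hN : N = l ^ k * p * R)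
    (hN0 : 0 < N) (hT : T < l ^ k) (hTN : T ≤ N) (hL : 3 * N ^ 2 < 2 ^ L) (hj : k ≤ 4 * j0)
    {C : Type} [Fintype C] (A : C → Fin 3 → ℤ) (hA : ∀ x, ¬ (l : ℤ) ∣ A x 2)
    (hTop : ∀ lab : Fin 3 → C × ℤ × ℤ, (∀ i, lab i ∈ Labs C (l ^ j0)) →
      (Function.Injective fun i => (lab i).1) → ∀ t : ℤ, 2 * |t| ≤ T →
      ¬ ((l ^ k : ℕ) : ℤ) ∣ D3 (fun i => rowOf A (lab i) 0) (fun i => rowOf A (lab i) 1)
        (fun i => rowOf A (lab i) 2) - t) :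
    ∑ ω ∈ Om (l ^ k) p,
      (((Fintype.piFinset fun _ : Fin 3 => Uset ν N (l ^ j0) A ω).filter (bad3 T)).card : ℝ) ≤
      343 ^ 3 * 288 * (k + 1) * L * (3 * (Fintype.card C : ℝ) ^ 2 * ((l : ℝ) ^ j0) ^ 6 * (j0 + 1))
        * (N : ℝ) ^ 6 / (l : ℝ) ^ k +
        ((Labs C (l ^ j0)).card : ℝ) ^ 3 * ((Om (l ^ k) p).card *
        (L * (2592 * ((l : ℝ) ^ k) ^ 2 * N ^ 3 * R ^ 2 +
        6480 * (N : ℝ) ^ 4 * R ^ 2 / p ^ 2 + 648 * (N : ℝ) ^ 4 * R))) := by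
  refine (sum_le_sum fun ω _ => B3_bound ν N (l ^ j0) T A ω).trans ?_
  rw [sum_comm, ← sum_filter_add_sum_filter_not (Fintype.piFinset fun _ : Fin 3 => Labs C (l ^ j0))
    (fun lab => Function.Injective fun i => (lab i).1)]
  have z : ∑ lab ∈ (Fintype.piFinset fun _ : Fin 3 => Labs C (l ^ j0)).filter
      (fun lab => Function.Injective fun i => (lab i).1),
      ∑ ω ∈ Om (l ^ k) p, ((Wset ν N T ω fun i => rowOf A (lab i)).card : ℝ) = 0 := by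
    apply sum_eq_zero
    intro lab hlab
    apply sum_eq_zero
    intro ω hω
    obtain ⟨a1, a2⟩ := mem_filter.1 hlab
    rw [W_empty ν N T ω hω _ (hTop lab (Fintype.mem_piFinset.1 a1) a2)]
    simp
  rw [z, zero_add]
  have hW := fun lab : Fin 3 → C × ℤ × ℤ => sum_W hl hν R N T L hcop hN hN0 hT hTN hL
    (fun i => rowOf A (lab i)) (lev l k j0 fun i => rowOf A (lab i))
    (lev_spec l k j0 hl (fun i => rowOf A (lab i)) (by simpa [rowOf] using hA (lab 0).1))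
  refine (sum_le_sum fun lab _ => hW lab).trans ?_
  rw [sum_add_distrib, sum_const, nsmul_eq_mul, ← sum_div, ← sum_mul, ← mul_sum]
  have s1 := sum_lev l k j0 hl hj A hA
  have s2 : (((Fintype.piFinset fun _ : Fin 3 => Labs C (l ^ j0)).filter
      fun lab => ¬ Function.Injective fun i => (lab i).1).card : ℝ) ≤
      ((Labs C (l ^ j0)).card : ℝ) ^ 3 := by
    have := card_filter_le (Fintype.piFinset fun _ : Fin 3 => Labs C (l ^ j0))
      fun lab => ¬ Function.Injective fun i => (lab i).1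
    rw [Fintype.card_piFinset, prod_const, card_univ, Fintype.card_fin] at this
    exact_mod_cast this
  apply add_le_add
  · gcongr
  · exact mul_le_mul_of_nonneg_right s2 (by positivity)

theorem points {l k p : ℕ} (hl : l.Prime) (hp : p.Prime) (hp2 : p ≠ 2) (hk : 0 < k)
    (R N T L j0 n : ℕ) (hcop : Nat.Coprime l p) (hN : N = l ^ k * p * R) (hN0 : 0 < N)
    (hT : T < l ^ k) (hTN : T ≤ N) (hL : 3 * N ^ 2 < 2 ^ L) (hj : k ≤ 4 * j0)
    {C : Type} [Fintype C] [Nonempty C] (A : C → Fin 3 → ℤ) (hA : ∀ x, ¬ (l : ℤ) ∣ A x 2)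
    (hTop : ∀ lab : Fin 3 → C × ℤ × ℤ, (∀ i, lab i ∈ Labs C (l ^ j0)) →
      (Function.Injective fun i => (lab i).1) → ∀ t : ℤ, 2 * |t| ≤ T →
      ¬ ((l ^ k : ℕ) : ℤ) ∣ D3 (fun i => rowOf A (lab i) 0) (fun i => rowOf A (lab i) 1)
        (fun i => rowOf A (lab i) 2) - t)
    (hnum : 4 * (n : ℝ) ^ 2 * (648 * L * ((l : ℝ) ^ k) ^ 4 / (N : ℝ) ^ 2) + 8 * (n : ℝ) ^ 3 *
      (343 ^ 3 * 3456 * (k + 1) * (j0 + 1) * L / (Fintype.card C * (N : ℝ) ^ 3) +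
        L * ((l : ℝ) ^ k) ^ 6 * (2592 * ((l : ℝ) ^ k) ^ 2 / ((N : ℝ) ^ 3 * R) +
          6480 / ((p : ℝ) ^ 2 * N ^ 2 * R) + 648 / ((N : ℝ) ^ 2 * R ^ 2))) ≤ n) :
    ∃ f : Fin n → Pt C, (∀ i, (0 ≤ (f i).2.1 ∧ (f i).2.1 < N) ∧
      (0 ≤ (f i).2.2.1 ∧ (f i).2.2.1 < N) ∧ (2 * (l ^ k : ℕ) * N ≤ (f i).2.2.2 ∧
        (f i).2.2.2 < 2 * (l ^ k : ℕ) * N + N)) ∧ (∀ ι : Fin 2 ↪ Fin n, ¬ bad2 (f ∘ ι)) ∧
      (∀ ι : Fin 3 ↪ Fin n, ¬ bad3 T (f ∘ ι)) := by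
  classical
  have : Fact p.Prime := ⟨hp⟩
  have : NeZero l := ⟨hl.ne_zero⟩
  obtain ⟨ν, hν⟩ := FiniteField.exists_nonsquare (F := ZMod p) (by rw [ZMod.ringChar_zmod_n]; exact hp2)
  have hL' : N < 2 ^ L := lt_of_le_of_lt (by nlinarith) hL
  have hcop' : Nat.Coprime (l ^ k) p := Nat.Coprime.pow_left k hcop
  have hR : 0 < R := by
    rcases Nat.eq_zero_or_pos R with rfl | h
    · simp at hN; omega
    · exact h
  have hlr : (0 : ℝ) < l := by exact_mod_cast hl.pos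
  have hpr : (0 : ℝ) < p := by exact_mod_cast hp.pos
  have hRr : (0 : ℝ) < R := by exact_mod_cast hR
  have hCr : (0 : ℝ) < Fintype.card C := by exact_mod_cast Fintype.card_pos
  have hNr : (N : ℝ) = (l : ℝ) ^ k * p * R := by exact_mod_cast hN
  have hLab : ((Labs C (l ^ j0)).card : ℝ) = Fintype.card C * ((l : ℝ) ^ j0) ^ 2 := by
    rw [card_Labs]; push_cast; rfl
  have hOm := card_Om l k p hl hk
  have hOm0 : (0 : ℝ) < (Om (l ^ k) p).card := lt_of_lt_of_le (by positivity) hOm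
  set u0 : ℝ := (Labs C (l ^ j0)).card * ((p * R) * ((p * R) * R)) with hu0
  have hu0p : 0 < u0 := by rw [hu0, hLab]; positivity
  have hU : ∀ ω : Seed (l ^ k) p, u0 ≤ (Uset ν N (l ^ j0) A ω).card := by
    intro ω
    rw [hu0]
    exact_mod_cast card_Uset hcop' ν R N (l ^ j0) hN A ω
  have h3 := sum_B3 hl hν R N T L j0 hcop hN hN0 hT hTN hL hj A hA hTop
  set W0 : ℝ := L * (2592 * ((l : ℝ) ^ k) ^ 2 * N ^ 3 * R ^ 2 +
        6480 * (N : ℝ) ^ 4 * R ^ 2 / p ^ 2 + 648 * (N : ℝ) ^ 4 * R) with hW0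
  obtain ⟨ω, _, hω⟩ : ∃ ω ∈ Om (l ^ k) p, ((2 * n : ℕ) : ℝ) ^ 2 *
        (((Fintype.piFinset fun _ : Fin 2 => Uset ν N (l ^ j0) A ω).filter bad2).card /
          ((Uset ν N (l ^ j0) A ω).card : ℝ) ^ 2) + ((2 * n : ℕ) : ℝ) ^ 3 *
        (((Fintype.piFinset fun _ : Fin 3 => Uset ν N (l ^ j0) A ω).filter (bad3 T)).card /
          ((Uset ν N (l ^ j0) A ω).card : ℝ) ^ 3) ≤ n := by
    apply exists_le_of_sum_le (card_pos.1 (by exact_mod_cast hOm0))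
    have a1 : ∀ ω ∈ Om (l ^ k) p, ((2 * n : ℕ) : ℝ) ^ 2 *
        (((Fintype.piFinset fun _ : Fin 2 => Uset ν N (l ^ j0) A ω).filter bad2).card /
          ((Uset ν N (l ^ j0) A ω).card : ℝ) ^ 2) + ((2 * n : ℕ) : ℝ) ^ 3 *
        (((Fintype.piFinset fun _ : Fin 3 => Uset ν N (l ^ j0) A ω).filter (bad3 T)).card /
          ((Uset ν N (l ^ j0) A ω).card : ℝ) ^ 3) ≤
        4 * (n : ℝ) ^ 2 * (648 * L * ((l : ℝ) ^ k) ^ 4 / (N : ℝ) ^ 2) + 8 * (n : ℝ) ^ 3 / u0 ^ 3 *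
        ((Fintype.piFinset fun _ : Fin 3 => Uset ν N (l ^ j0) A ω).filter (bad3 T)).card := by
      intro ω _
      have b2 := B2_bound hcop' ν R N (l ^ j0) L hN hN0 hL' A ω
      have b3 := hU ω
      apply add_le_add
      · calc _ ≤ ((2 * n : ℕ) : ℝ) ^ 2 * ((((Labs C (l ^ j0)).card : ℝ) ^ 2 *
              (648 * L * (N : ℝ) ^ 2) * R ^ 2) / u0 ^ 2) := by
              gcongr
          _ = _ := by
              rw [hu0, hLab, hNr]
              push_cast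
              field_simp
              ring
      · calc _ ≤ ((2 * n : ℕ) : ℝ) ^ 3 * (((Fintype.piFinset fun _ : Fin 3 =>
              Uset ν N (l ^ j0) A ω).filter (bad3 T)).card / u0 ^ 3) := by gcongr
          _ = _ := by push_cast; ring
    refine (sum_le_sum a1).trans ?_
    rw [sum_add_distrib, sum_const, sum_const, nsmul_eq_mul, nsmul_eq_mul, ← mul_sum]
    refine le_trans ?_ (mul_le_mul_of_nonneg_left hnum hOm0.le)
    rw [mul_add]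
    refine add_le_add le_rfl ?_
    refine (mul_le_mul_of_nonneg_left h3 (by positivity)).trans ?_
    rw [mul_add (8 * (n : ℝ) ^ 3 / u0 ^ 3), mul_add (8 * (n : ℝ) ^ 3),
      mul_add ((Om (l ^ k) p).card : ℝ)]
    apply add_le_add
    · calc _ = ((l : ℝ) ^ k) ^ 8 * p ^ 3 / 4 * (8 * (n : ℝ) ^ 3 *
          (343 ^ 3 * 3456 * (k + 1) * (j0 + 1) * L / (Fintype.card C * (N : ℝ) ^ 3))) := by
            rw [hu0, hLab, hNr]
            field_simp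
            ring
        _ ≤ _ := mul_le_mul_of_nonneg_right hOm (by positivity)
    · apply le_of_eq
      rw [hu0, hW0, hLab, hNr]
      field_simp
  have hne : (Uset ν N (l ^ j0) A ω).Nonempty :=
    card_pos.1 (by exact_mod_cast lt_of_lt_of_le hu0p (hU ω))
  obtain ⟨f, f1, f2, f3⟩ := deletion _ hne bad2 (bad3 T) n hω
  exact ⟨f, fun i => (mem_Uset.1 (f1 i)).1.2, f2, f3⟩

end Vale.Agent.P036
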