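import Vale.Agent.P036.Lines

namespace Vale.Agent.P036
open Finset

lemma coord_count (Q R N : ℕ) (hQ : 0 < Q) (hN : N = Q * R) (o : ℤ) (S : Finset (Fin 3 → ℤ))
    (hb : ∀ Z ∈ S, Z ∈ box o N) (hd : ∀ Z ∈ S, ∀ Z' ∈ S, ∀ i, (Q : ℤ) ∣ Z i - Z' i) (i : Fin 3) :
    (S.image fun Z => Z i).card ≤ R := by
  apply card_res _ id o Q R hQ (fun _ _ _ _ h => h)
  · intro x hx
    obtain ⟨Z, hZ, rfl⟩ := mem_image.1 hx
    have := mem_box.1 (hb Z hZ) i
    rw [hN] at this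
    exact_mod_cast this
  · intro x hx y hy
    obtain ⟨Z, hZ, rfl⟩ := mem_image.1 hx
    obtain ⟨Z', hZ', rfl⟩ := mem_image.1 hy
    exact hd Z hZ Z' hZ' i

lemma Z_count3 (Q R N M : ℕ) (hQ : 0 < Q) (hN : N = Q * R) (o : ℤ) (S : Finset (Fin 3 → ℤ))
    (hb : ∀ Z ∈ S, Z ∈ box o N) (hd : ∀ Z ∈ S, ∀ Z' ∈ S, ∀ i, (Q : ℤ) ∣ Z i - Z' i)
    (κ : Fin 3 → ℤ) (hκ : κ 2 ≠ 0) (hτ : ∀ Z ∈ S, |dot κ Z| < M) :
    (S.card : ℝ) ≤ (R : ℝ) ^ 2 * (2 * M) := by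
  have h : S.card ≤ ((S.image fun Z => Z 0) ×ˢ (S.image fun Z => Z 1) ×ˢ
      Ico (-(M : ℤ)) M).card := by
    apply card_le_card_of_injOn (fun Z => (Z 0, Z 1, dot κ Z))
    · intro Z hZ
      simp only [coe_product, Set.mem_prod, mem_coe, mem_Ico]
      have := abs_lt.1 (hτ Z hZ)
      exact ⟨mem_image_of_mem _ hZ, mem_image_of_mem _ hZ, this.1.le, this.2⟩
    · intro Z _ Z' _ h
      simp only [Prod.mk.injEq, dot] at h
      obtain ⟨h0, h1, h2⟩ := h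
      rw [h0, h1] at h2
      have h3 : Z 2 = Z' 2 := mul_left_cancel₀ hκ (by linarith)
      funext i; fin_cases i <;> assumption
  rw [card_product, card_product, Int.card_Ico] at h
  have e : ((M : ℤ) - -(M : ℤ)).toNat = 2 * M := by omega
  rw [e] at h
  have h2 := h.trans (Nat.mul_le_mul (coord_count Q R N hQ hN o S hb hd 0)
    (Nat.mul_le_mul_right _ (coord_count Q R N hQ hN o S hb hd 1)))
  have h3 : (S.card : ℝ) ≤ R * (R * (2 * M)) := by exact_mod_cast h2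
  linarith

lemma Z_aux (Q R N : ℕ) (hQ : 0 < Q) (hN : N = Q * R) (o : ℤ) (S : Finset (Fin 3 → ℤ))
    (hb : ∀ Z ∈ S, Z ∈ box o N) (hd : ∀ Z ∈ S, ∀ Z' ∈ S, ∀ i, (Q : ℤ) ∣ Z i - Z' i)
    (u v : ℤ) (hv : v ≠ 0) (huv : IsCoprime u v) (i j : Fin 3)
    (hext : ∀ Z ∈ S, ∀ Z' ∈ S, Z i = Z' i → Z j = Z' j → Z = Z')
    (hrel : ∀ Z ∈ S, ∀ Z' ∈ S, u * (Z i - Z' i) + v * (Z j - Z' j) = 0) :
    (S.card : ℝ) ≤ (R : ℝ) / v.natAbs + 1 := by
  have hv' : 0 < v.natAbs := Int.natAbs_pos.2 hv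
  have hQz : (Q : ℤ) ≠ 0 := by exact_mod_cast hQ.ne'
  have h := card_res_real S (fun Z => Z i) o (Q * v.natAbs) N (Nat.mul_pos hQ hv') (by
      intro Z hZ Z' hZ' h
      apply hext Z hZ Z' hZ' h
      have := hrel Z hZ Z' hZ'
      rw [h, sub_self, mul_zero, zero_add] at this
      have := (mul_eq_zero.1 this).resolve_left hv
      linarith) (by
      intro Z hZ
      have := mem_box.1 (hb Z hZ) i
      exact ⟨this.1, this.2.le⟩) (by
      intro Z hZ Z' hZ'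
      obtain ⟨y, hy⟩ := hd Z hZ Z' hZ' i
      obtain ⟨y', hy'⟩ := hd Z hZ Z' hZ' j
      have h1 := hrel Z hZ Z' hZ'
      rw [hy, hy'] at h1
      have h2 : u * y = v * (-y') := mul_left_cancel₀ hQz (by linear_combination h1)
      have h3 : v ∣ y := huv.symm.dvd_of_dvd_mul_left ⟨_, h2⟩
      simp only [hy]
      push_cast
      exact mul_dvd_mul_left _ ((abs_dvd _ _).2 h3))
  have hQr : (0 : ℝ) < Q := by exact_mod_cast hQ
  have hvr : (0 : ℝ) < v.natAbs := by exact_mod_cast hv'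
  refine h.trans (le_of_eq ?_)
  rw [hN]
  push_cast
  field_simp

lemma Z_count4 (Q R N : ℕ) (hQ : 0 < Q) (hN : N = Q * R) (o : ℤ) (S : Finset (Fin 3 → ℤ))
    (hb : ∀ Z ∈ S, Z ∈ box o N) (hd : ∀ Z ∈ S, ∀ Z' ∈ S, ∀ i, (Q : ℤ) ∣ Z i - Z' i)
    (u v : ℤ) (hu : u ≠ 0) (hv : v ≠ 0) (huv : IsCoprime u v)
    (hτ : ∀ Z ∈ S, dot ![-u - v, u, v] Z = 0) :
    (S.card : ℝ) ≤ R * ((R : ℝ) / mx (u, v) + 1) := by
  have h := card_le_fib S (S.image fun Z => Z 0) (fun Z => Z 0) ((R : ℝ) / mx (u, v) + 1)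
    (by positivity) (fun Z hZ => mem_image_of_mem _ hZ) (by
      intro Z0 _
      set S' := S.filter fun Z => Z 0 = Z0 0 with hS'
      have hb' : ∀ Z ∈ S', Z ∈ box o N := fun Z hZ => hb Z (mem_filter.1 hZ).1
      have hd' : ∀ Z ∈ S', ∀ Z' ∈ S', ∀ i, (Q : ℤ) ∣ Z i - Z' i :=
        fun Z hZ Z' hZ' => hd Z (mem_filter.1 hZ).1 Z' (mem_filter.1 hZ').1
      have hext : ∀ Z ∈ S', ∀ Z' ∈ S', Z 1 = Z' 1 → Z 2 = Z' 2 → Z = Z' := by
        intro Z hZ Z' hZ' h1 h2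
        have h0 : Z 0 = Z' 0 := (mem_filter.1 hZ).2.trans (mem_filter.1 hZ').2.symm
        funext i; fin_cases i <;> assumption
      have hrel : ∀ Z ∈ S', ∀ Z' ∈ S', u * (Z 1 - Z' 1) + v * (Z 2 - Z' 2) = 0 := by
        intro Z hZ Z' hZ'
        have h0 : Z 0 = Z' 0 := (mem_filter.1 hZ).2.trans (mem_filter.1 hZ').2.symm
        have h1 := hτ Z (mem_filter.1 hZ).1
        have h2 := hτ Z' (mem_filter.1 hZ').1
        simp only [dot, Matrix.cons_val_zero, Matrix.cons_val_one, Matrix.cons_val] at h1 h2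
        rw [h0] at h1
        linear_combination h1 - h2
      unfold mx
      rcases le_total u.natAbs v.natAbs with h | h
      · rw [max_eq_right h]
        exact Z_aux Q R N hQ hN o S' hb' hd' u v hv huv 1 2 hext hrel
      · rw [max_eq_left h]
        exact Z_aux Q R N hQ hN o S' hb' hd' v u hu huv.symm 2 1
          (fun Z hZ Z' hZ' h1 h2 => hext Z hZ Z' hZ' h2 h1)
          (fun Z hZ Z' hZ' => by linear_combination hrel Z hZ Z' hZ'))
  refine h.trans (mul_le_mul_of_nonneg_right ?_ (by positivity))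
  exact_mod_cast coord_count Q R N hQ hN o S hb hd 0

def OnLine (κ d : ℤ × ℤ) (X Y : Fin 3 → ℤ) : Prop :=
  X 1 = X 0 + κ.2 * d.1 ∧ Y 1 = Y 0 + κ.2 * d.2 ∧ X 2 = X 0 - κ.1 * d.1 ∧ Y 2 = Y 0 - κ.1 * d.2

lemma line_count {M p : ℕ} (ν : ZMod p) (N T : ℕ) (hcop : Nat.Coprime M p) (ω : Seed M p)
    (a : Fin 3 → Fin 3 → ℤ) (S : Finset Tri) (hS : ∀ t ∈ S, t ∈ Wset ν N T ω a) (κ : ℤ × ℤ)
    (E : Finset ((ℤ × ℤ) × (ℤ × ℤ))) (ζ : ℝ) (P : (Fin 3 → ℤ) → Prop)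
    (hE : ∀ t ∈ S, P t.2.2 ∧ ∃ d, (d, (t.1 0, t.2.1 0)) ∈ E ∧ OnLine κ d t.1 t.2.1)
    (hζ : ∀ S' : Finset (Fin 3 → ℤ), (∀ Z ∈ S', Z ∈ box (2 * M * N) N) →
      (∀ Z ∈ S', ∀ Z' ∈ S', ∀ i, ((M * p : ℕ) : ℤ) ∣ Z i - Z' i) → (∀ Z ∈ S', P Z) →
      (S'.card : ℝ) ≤ ζ) : (S.card : ℝ) ≤ E.card * ζ := by
  classical
  have h := card_le_sum_cover S E
    (fun e t => t.1 0 = e.2.1 ∧ t.2.1 0 = e.2.2 ∧ OnLine κ e.1 t.1 t.2.1) (fun _ => ζ) (by
      intro t ht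
      obtain ⟨_, d, h1, h2⟩ := hE t ht
      exact ⟨_, h1, rfl, rfl, h2⟩) (by
      intro e _
      set S' := S.filter
        (fun t => t.1 0 = e.2.1 ∧ t.2.1 0 = e.2.2 ∧ OnLine κ e.1 t.1 t.2.1) with hS'
      have hXY : ∀ t ∈ S', ∀ t' ∈ S', t.1 = t'.1 ∧ t.2.1 = t'.2.1 := by
        intro t ht t' ht'
        obtain ⟨a1, a2, a3, a4, a5, a6⟩ := (mem_filter.1 ht).2
        obtain ⟨b1, b2, b3, b4, b5, b6⟩ := (mem_filter.1 ht').2
        constructor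
        · funext i
          fin_cases i
          · exact a1.trans b1.symm
          · exact a3.trans (by rw [a1, ← b1]; exact b3.symm)
          · exact a5.trans (by rw [a1, ← b1]; exact b5.symm)
        · funext i
          fin_cases i
          · exact a2.trans b2.symm
          · exact a4.trans (by rw [a2, ← b2]; exact b4.symm)
          · exact a6.trans (by rw [a2, ← b2]; exact b6.symm)
      have hc : S'.card = (S'.image fun t => t.2.2).card := by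
        rw [card_image_of_injOn]
        intro t ht t' ht' h
        exact Prod.ext (hXY t ht t' ht').1 (Prod.ext (hXY t ht t' ht').2 h)
      rw [hc]
      apply hζ
      · intro Z hZ
        obtain ⟨t, ht, rfl⟩ := mem_image.1 hZ
        exact (mem_Wset.1 (hS t (mem_filter.1 ht).1)).1.2.2
      · intro Z hZ Z' hZ' i
        obtain ⟨t, ht, rfl⟩ := mem_image.1 hZ
        obtain ⟨t', ht', rfl⟩ := mem_image.1 hZ'
        apply ker_Rg hcop
        have c1 := ((mem_Wset.1 (hS t (mem_filter.1 ht).1)).2.1 i).2.2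
        have c2 := ((mem_Wset.1 (hS t' (mem_filter.1 ht').1)).2.1 i).2.2
        rw [(hXY t ht t' ht').1, (hXY t ht t' ht').2] at c1
        push_cast
        rw [c1, c2, sub_self]
      · intro Z hZ
        obtain ⟨t, ht, rfl⟩ := mem_image.1 hZ
        exact (hE t (mem_filter.1 ht).1).1)
  simpa using h

noncomputable def Sq (N : ℕ) : Finset (ℤ × ℤ) := Ico (0 : ℤ) N ×ˢ Ico (0 : ℤ) N

lemma card_Sq (N : ℕ) : (Sq N).card = N ^ 2 := by simp [Sq, sq]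

noncomputable def E3 (N M m : ℕ) : Finset ((ℤ × ℤ) × (ℤ × ℤ)) :=
  (Dbox N m 1 ×ˢ Sq N).filter fun e => ¬ (e.1.1 = 0 ∧ e.1.2 = 0) ∧
    |e.2.1 * e.1.2 - e.2.2 * e.1.1| < M

lemma card_E3 (N M m : ℕ) (hm : 1 ≤ m) (h : m ≤ N) :
    ((E3 N M m).card : ℝ) ≤ (3 * N / m) ^ 2 * (2 * M * N) := by
  have h1 := card_le_fib (E3 N M m) (Dbox N m 1) (fun e => e.1) (2 * M * N) (by positivity)
    (fun e he => (mem_product.1 (mem_filter.1 he).1).1) (by
      intro e0 he0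
      have hd := (mem_filter.1 he0).2.1
      have h2 : ((E3 N M m).filter fun e => e.1 = e0.1).card ≤
          (Ico (-(M : ℤ)) M ×ˢ Ico (0 : ℤ) N).card := by
        apply card_le_card_of_injOn (fun e => (e.2.1 * e.1.2 - e.2.2 * e.1.1,
          if e0.1.1 = 0 then e.2.2 else e.2.1))
        · intro e he
          obtain ⟨a1, _⟩ := mem_filter.1 he
          obtain ⟨a2, _, a3⟩ := mem_filter.1 a1
          have a4 := mem_product.1 (mem_product.1 a2).2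
          have a5 := abs_lt.1 a3
          simp only [coe_product, Set.mem_prod, mem_coe]
          refine ⟨mem_Ico.2 ⟨a5.1.le, a5.2⟩, ?_⟩
          split_ifs
          · exact a4.2
          · exact a4.1
        · intro e he e' he' h
          have a1 := (mem_filter.1 he).2
          have a2 := (mem_filter.1 he').2
          simp only [Prod.mk.injEq, a1, a2] at h
          obtain ⟨b1, b2⟩ := h
          refine Prod.ext (a1.trans a2.symm) ?_
          split_ifs at b2 with h0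
          · have h3 : e0.1.2 ≠ 0 := fun h3 => hd ⟨h0, h3⟩
            rw [b2] at b1
            exact Prod.ext (mul_right_cancel₀ h3 (by linarith)) b2
          · rw [b2] at b1
            exact Prod.ext b2 (mul_right_cancel₀ h0 (by linarith))
      rw [card_product, Int.card_Ico, Int.card_Ico] at h2
      have e1 : ((M : ℤ) - -(M : ℤ)).toNat = 2 * M := by omega
      have e2 : ((N : ℤ) - 0).toNat = N := by omega
      rw [e1, e2] at h2
      exact_mod_cast h2)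
  refine h1.trans (mul_le_mul_of_nonneg_right ?_ (by positivity))
  simpa using card_Dbox N m 1 hm le_rfl (by simpa using h)

lemma aniso {p : ℕ} [Fact p.Prime] {ν : ZMod p} (hν : ¬ IsSquare ν) (x y : ZMod p)
    (h : x ^ 2 - ν * y ^ 2 = 0) : x = 0 ∧ y = 0 := by
  have hy : y = 0 := by
    by_contra hy
    exact hν ⟨x / y, by field_simp; linear_combination -h⟩
  rw [hy] at h
  exact ⟨by simpa using h, hy⟩

lemma structure0 {M p : ℕ} [Fact p.Prime] {ν : ZMod p} (hν : ¬ IsSquare ν) {N T : ℕ} (hT : T < M)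
    {ω : Seed M p} {a : Fin 3 → Fin 3 → ℤ} {t : Tri} (ht : t ∈ Wset ν N T ω a)
    (hσ : sig (cr t.1 t.2.1) = 0) :
    ∃ κ ∈ Pset N, ∃ d ∈ Dbox N (mx κ) 1, κ.1 ≠ 0 ∧ κ.2 ≠ 0 ∧ IsCoprime κ.1 κ.2 ∧
      ¬ (d.1 = 0 ∧ d.2 = 0) ∧ OnLine κ d t.1 t.2.1 ∧
      ((|dot ![-κ.1 - κ.2, κ.1, κ.2] t.2.2| < M ∧ |t.1 0 * d.2 - t.2.1 0 * d.1| < M) ∨
        (dot ![-κ.1 - κ.2, κ.1, κ.2] t.2.2 = 0 ∧ (p : ℤ) ∣ d.1 ∧ (p : ℤ) ∣ d.2) ∨
        (dot ![-κ.1 - κ.2, κ.1, κ.2] t.2.2 = 0 ∧ Special p κ)) := by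
  obtain ⟨X, Y, Z⟩ := t
  rw [mem_Wset] at ht
  obtain ⟨⟨bX, bY, _⟩, hcg, hne, hdet⟩ := ht
  simp only at bX bY hcg hne hdet hσ ⊢
  obtain ⟨g, κ, e, hg, hc, he⟩ := exists_prim _ (hne 0)
  have hc' := isCr_iff.2 hc
  have hκ : ∀ i, κ i ≠ 0 := by
    intro i h
    apply hne i
    rw [hc, h, mul_zero]
  have hs : κ 0 = -κ 1 - κ 2 := by
    unfold sig at hσ
    rw [hc, hc, hc] at hσ
    apply mul_left_cancel₀ hg.ne'
    linear_combination hσ
  have hκe : κ = ![-κ 1 - κ 2, κ 1, κ 2] := by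
    funext i; fin_cases i
    · exact hs
    · rfl
    · rfl
  have dX := hc'.dotX hg.ne'
  have dY := hc'.dotY hg.ne'
  have cd := congrArg Prod.snd (cast_dot hcg dX dY)
  have hτ := tau_le hg.ne' hc' hdet
  rw [dot_cr hc'] at hdet
  unfold dot at dX dY he
  rw [hs] at dX dY he
  set d1 := (e 2 - e 0) * (X 1 - X 0) - (e 1 - e 0) * (X 2 - X 0) with hd1
  set d2 := (e 2 - e 0) * (Y 1 - Y 0) - (e 1 - e 0) * (Y 2 - Y 0) with hd2
  have l1 : X 1 = X 0 + κ 2 * d1 := by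
    rw [hd1]; linear_combination (e 1 - e 0) * dX - (X 1 - X 0) * he
  have l2 : Y 1 = Y 0 + κ 2 * d2 := by
    rw [hd2]; linear_combination (e 1 - e 0) * dY - (Y 1 - Y 0) * he
  have l3 : X 2 = X 0 - κ 1 * d1 := by
    rw [hd1]; linear_combination (e 2 - e 0) * dX - (X 2 - X 0) * he
  have l4 : Y 2 = Y 0 - κ 1 * d2 := by
    rw [hd2]; linear_combination (e 2 - e 0) * dY - (Y 2 - Y 0) * he
  clear_value d1 d2
  have hgd : g = X 0 * d2 - Y 0 * d1 := by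
    apply mul_right_cancel₀ (hκ 2)
    have := hc'.2.2
    rw [l1, l2] at this
    linear_combination -this
  have hd0 : ¬ (d1 = 0 ∧ d2 = 0) := by
    rintro ⟨rfl, rfl⟩
    simp at hgd
    exact hg.ne' hgd
  have diff : ∀ {V : Fin 3 → ℤ}, V ∈ box 0 N → ∀ i j, |V i - V j| ≤ N := by
    intro V hV i j
    have h1 := mem_box.1 hV i
    have h2 := mem_box.1 hV j
    rw [abs_le]; constructor <;> linarith [h1.1, h1.2, h2.1, h2.2]
  have c1 : |d1| * mx (κ 1, κ 2) ≤ N :=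
    mx_bound (by have := diff bX 0 2; rwa [l3, sub_sub_cancel] at this)
      (by have := diff bX 1 0; rwa [l1, add_sub_cancel_left] at this)
  have c2 : |d2| * mx (κ 1, κ 2) ≤ N :=
    mx_bound (by have := diff bY 0 2; rwa [l4, sub_sub_cancel] at this)
      (by have := diff bY 1 0; rwa [l2, add_sub_cancel_left] at this)
  have m1 : 1 ≤ mx (κ 1, κ 2) := by
    have := hκ 1
    unfold mx; omega
  have hT' : (T : ℤ) < M := by exact_mod_cast hT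
  refine ⟨(κ 1, κ 2), mem_Pset.2 ⟨m1, by simpa using mx_le 1 c1 c2 (by simp) (by simp) hd0⟩,
    (d1, d2), mem_product.2 ⟨(mem_Dline m1).2 ⟨c1, by simp⟩, (mem_Dline m1).2 ⟨c2, by simp⟩⟩,
    hκ 1, hκ 2, ⟨e 1 - e 0, e 2 - e 0, by linear_combination he⟩, hd0, ⟨l1, l2, l3, l4⟩, ?_⟩
  simp only
  rw [← hκe]
  by_cases h0 : dot κ Z = 0
  · right
    rw [h0] at cd
    simp only [zpt, Prod.snd_add, Prod.snd_mul, Prod.snd_intCast, hs, l1, l2, l3, l4] at cd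
    push_cast at cd
    have key : (κ 1 : ZMod p) * κ 2 * (κ 1 + κ 2) * ((d1 : ZMod p) ^ 2 - ν * (d2 : ZMod p) ^ 2)
        = 0 := by linear_combination -cd
    rcases mul_eq_zero.1 key with h | h
    · right
      refine ⟨h0, ?_⟩
      rcases mul_eq_zero.1 h with h | h
      · rcases mul_eq_zero.1 h with h | h
        · exact Or.inl ⟨hκ 1, (ZMod.intCast_zmod_eq_zero_iff_dvd _ _).1 h⟩
        · exact Or.inr (Or.inl ⟨hκ 2, (ZMod.intCast_zmod_eq_zero_iff_dvd _ _).1 h⟩)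
      · refine Or.inr (Or.inr ⟨fun h1 => hκ 0 (by simp only at h1; linarith), ?_⟩)
        rw [← ZMod.intCast_zmod_eq_zero_iff_dvd]
        push_cast; exact h
    · left
      obtain ⟨h1, h2⟩ := aniso hν _ _ h
      exact ⟨h0, (ZMod.intCast_zmod_eq_zero_iff_dvd _ _).1 h1,
        (ZMod.intCast_zmod_eq_zero_iff_dvd _ _).1 h2⟩
  · left
    have h1 : 1 ≤ |dot κ Z| := Int.one_le_abs h0
    rw [abs_mul] at hdet
    rw [← hgd]
    constructor
    · linarith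
    · nlinarith [abs_nonneg g]

lemma count_0 {M p : ℕ} [Fact p.Prime] {ν : ZMod p} (hν : ¬ IsSquare ν) (R N T L : ℕ)
    (hM : 0 < M) (hcop : Nat.Coprime M p) (hN : N = M * p * R) (hN0 : 0 < N) (hT : T < M)
    (hL : N < 2 ^ L) (ω : Seed M p) (a : Fin 3 → Fin 3 → ℤ) (S : Finset Tri)
    (hS : ∀ t ∈ S, t ∈ Wset ν N T ω a ∧ sig (cr t.1 t.2.1) = 0) :
    (S.card : ℝ) ≤ L * (2592 * (M : ℝ) ^ 2 * N ^ 3 * R ^ 2 + 6480 * (N : ℝ) ^ 4 * R ^ 2 / p ^ 2 +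
      648 * (N : ℝ) ^ 4 * R) := by
  classical
  have hp : p.Prime := Fact.out
  have hpr : (0 : ℝ) < p := by exact_mod_cast hp.pos
  have hQ : 0 < M * p := Nat.mul_pos hM hp.pos
  have hR : 1 ≤ R := by
    rcases Nat.eq_zero_or_pos R with rfl | h
    · simp at hN; omega
    · exact h
  have hRr : (1 : ℝ) ≤ R := by exact_mod_cast hR
  have sq0 : ∀ t ∈ S, (t.1 0, t.2.1 0) ∈ Sq N := by
    intro t ht
    have w := (mem_Wset.1 (hS t ht).1).1
    have h1 := mem_box.1 w.1 0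
    have h2 := mem_box.1 w.2.1 0
    simp only [Sq, mem_product, mem_Ico]
    simpa using And.intro h1 h2
  have h1 := card_le_sum_cover S (Pset N) (fun κ t => κ.1 ≠ 0 ∧ κ.2 ≠ 0 ∧ IsCoprime κ.1 κ.2 ∧
      ∃ d ∈ Dbox N (mx κ) 1, ¬ (d.1 = 0 ∧ d.2 = 0) ∧ OnLine κ d t.1 t.2.1 ∧
      ((|dot ![-κ.1 - κ.2, κ.1, κ.2] t.2.2| < M ∧ |t.1 0 * d.2 - t.2.1 0 * d.1| < M) ∨
        (dot ![-κ.1 - κ.2, κ.1, κ.2] t.2.2 = 0 ∧ (p : ℤ) ∣ d.1 ∧ (p : ℤ) ∣ d.2) ∨
        (dot ![-κ.1 - κ.2, κ.1, κ.2] t.2.2 = 0 ∧ Special p κ)))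
    (fun κ => (36 * (M : ℝ) ^ 2 * N ^ 3 * R ^ 2 + 18 * (N : ℝ) ^ 4 * R ^ 2 / p ^ 2 +
      9 * (N : ℝ) ^ 4 * R) * (1 / (mx κ : ℝ) ^ 2) +
      9 * (N : ℝ) ^ 4 * R ^ 2 * (if Special p κ then 1 / (mx κ : ℝ) ^ 3 else 0)) (by
      intro t ht
      obtain ⟨κ, h1, d, h2, h3, h4, h5, h6⟩ := structure0 hν hT (hS t ht).1 (hS t ht).2
      exact ⟨κ, h1, h3, h4, h5, d, h2, h6⟩) (by
      intro κ hκ
      obtain ⟨m1, m2⟩ := mem_Pset.1 hκ
      have hm : (1 : ℝ) ≤ mx κ := by exact_mod_cast m1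
      by_cases hk : κ.1 ≠ 0 ∧ κ.2 ≠ 0 ∧ IsCoprime κ.1 κ.2
      swap
      · rw [filter_false_of_mem (fun t _ h => hk ⟨h.1, h.2.1, h.2.2.1⟩)]
        simp only [card_empty, Nat.cast_zero]
        split_ifs <;> positivity
      obtain ⟨k1, k2, k3⟩ := hk
      set A := S.filter fun t => |dot ![-κ.1 - κ.2, κ.1, κ.2] t.2.2| < M ∧
        ∃ d, (d, (t.1 0, t.2.1 0)) ∈ E3 N M (mx κ) ∧ OnLine κ d t.1 t.2.1 with hA
      set B := S.filter fun t => dot ![-κ.1 - κ.2, κ.1, κ.2] t.2.2 = 0 ∧ p * mx κ ≤ N ∧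
        ∃ d, (d, (t.1 0, t.2.1 0)) ∈ Dbox N (mx κ) p ×ˢ Sq N ∧ OnLine κ d t.1 t.2.1 with hB
      set C := S.filter fun t => dot ![-κ.1 - κ.2, κ.1, κ.2] t.2.2 = 0 ∧ Special p κ ∧
        ∃ d, (d, (t.1 0, t.2.1 0)) ∈ Dbox N (mx κ) 1 ×ˢ Sq N ∧ OnLine κ d t.1 t.2.1 with hC
      have cA : (A.card : ℝ) ≤ (3 * N / mx κ) ^ 2 * (2 * M * N) * ((R : ℝ) ^ 2 * (2 * M)) := by
        have := line_count ν N T hcop ω a A (fun t ht => (hS t (mem_filter.1 ht).1).1) κ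
          (E3 N M (mx κ)) ((R : ℝ) ^ 2 * (2 * M))
          (fun Z => |dot ![-κ.1 - κ.2, κ.1, κ.2] Z| < M) (fun t ht => (mem_filter.1 ht).2)
          (fun S' a1 a2 a3 => Z_count3 (M * p) R N M hQ hN _ S' a1 a2 _ k2 a3)
        exact this.trans (mul_le_mul_of_nonneg_right (card_E3 N M _ m1 m2) (by positivity))
      have cB : (B.card : ℝ) ≤ (3 * N / (p * mx κ)) ^ 2 * N ^ 2 * (R * ((R : ℝ) / mx κ + 1)) := by
        by_cases hpm : p * mx κ ≤ N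
        swap
        · rw [hB, filter_false_of_mem (fun t _ h => hpm h.2.1)]
          simp only [card_empty, Nat.cast_zero]
          positivity
        have := line_count ν N T hcop ω a B (fun t ht => (hS t (mem_filter.1 ht).1).1) κ
          (Dbox N (mx κ) p ×ˢ Sq N) (R * ((R : ℝ) / mx κ + 1))
          (fun Z => dot ![-κ.1 - κ.2, κ.1, κ.2] Z = 0)
          (fun t ht => ⟨(mem_filter.1 ht).2.1, (mem_filter.1 ht).2.2.2⟩)
          (fun S' a1 a2 a3 => Z_count4 (M * p) R N hQ hN _ S' a1 a2 _ _ k1 k2 k3 a3)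
        refine this.trans (mul_le_mul_of_nonneg_right ?_ (by positivity))
        rw [card_product, card_Sq]
        push_cast
        exact mul_le_mul_of_nonneg_right (card_Dbox N _ p m1 hp.pos hpm) (by positivity)
      have cC : (C.card : ℝ) ≤ if Special p κ then
          (3 * N / mx κ) ^ 2 * N ^ 2 * (R * ((R : ℝ) / mx κ + 1)) else 0 := by
        split_ifs with hsp
        swap
        · rw [hC, filter_false_of_mem (fun t _ h => hsp h.2.1)]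
          simp
        have := line_count ν N T hcop ω a C (fun t ht => (hS t (mem_filter.1 ht).1).1) κ
          (Dbox N (mx κ) 1 ×ˢ Sq N) (R * ((R : ℝ) / mx κ + 1))
          (fun Z => dot ![-κ.1 - κ.2, κ.1, κ.2] Z = 0)
          (fun t ht => ⟨(mem_filter.1 ht).2.1, (mem_filter.1 ht).2.2.2⟩)
          (fun S' a1 a2 a3 => Z_count4 (M * p) R N hQ hN _ S' a1 a2 _ _ k1 k2 k3 a3)
        refine this.trans (mul_le_mul_of_nonneg_right ?_ (by positivity))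
        rw [card_product, card_Sq]
        push_cast
        apply mul_le_mul_of_nonneg_right _ (by positivity)
        simpa using card_Dbox N _ 1 m1 le_rfl (by simpa using m2)
      have hsub : (S.filter fun t => κ.1 ≠ 0 ∧ κ.2 ≠ 0 ∧ IsCoprime κ.1 κ.2 ∧
          ∃ d ∈ Dbox N (mx κ) 1, ¬ (d.1 = 0 ∧ d.2 = 0) ∧ OnLine κ d t.1 t.2.1 ∧
          ((|dot ![-κ.1 - κ.2, κ.1, κ.2] t.2.2| < M ∧ |t.1 0 * d.2 - t.2.1 0 * d.1| < M) ∨
          (dot ![-κ.1 - κ.2, κ.1, κ.2] t.2.2 = 0 ∧ (p : ℤ) ∣ d.1 ∧ (p : ℤ) ∣ d.2) ∨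
          (dot ![-κ.1 - κ.2, κ.1, κ.2] t.2.2 = 0 ∧ Special p κ))) ⊆ A ∪ (B ∪ C) := by
        intro t ht
        obtain ⟨h0, _, _, _, d, h2, h3, h4, h5⟩ := mem_filter.1 ht
        have s0 := sq0 t h0
        rcases h5 with h5 | h5 | h5
        · exact mem_union_left _ (mem_filter.2 ⟨h0, h5.1, d,
            mem_filter.2 ⟨mem_product.2 ⟨h2, s0⟩, h3, h5.2⟩, h4⟩)
        · have c1 := ((mem_Dline m1).1 (mem_product.1 h2).1).1
          have c2 := ((mem_Dline m1).1 (mem_product.1 h2).2).1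
          exact mem_union_right _ (mem_union_left _ (mem_filter.2 ⟨h0, h5.1,
            mx_le p c1 c2 h5.2.1 h5.2.2 h3, d, mem_product.2 ⟨mem_product.2
              ⟨(mem_Dline m1).2 ⟨c1, h5.2.1⟩, (mem_Dline m1).2 ⟨c2, h5.2.2⟩⟩, s0⟩, h4⟩))
        · exact mem_union_right _ (mem_union_right _ (mem_filter.2 ⟨h0, h5.1, h5.2, d,
            mem_product.2 ⟨h2, s0⟩, h4⟩))
      have hc := (card_le_card hsub).trans ((card_union_le _ _).trans
        (Nat.add_le_add_left (card_union_le _ _) _))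
      refine le_trans (Nat.cast_le.2 hc) ?_
      push_cast
      have hB2 : (3 * (N : ℝ) / (p * mx κ)) ^ 2 * N ^ 2 * (R * ((R : ℝ) / mx κ + 1)) ≤
          18 * (N : ℝ) ^ 4 * R ^ 2 / p ^ 2 * (1 / (mx κ : ℝ) ^ 2) := by
        have : (R : ℝ) / mx κ + 1 ≤ 2 * R := by
          have : (R : ℝ) / mx κ ≤ R := div_le_self (by positivity) hm
          linarith
        calc _ ≤ (3 * (N : ℝ) / (p * mx κ)) ^ 2 * N ^ 2 * (R * (2 * R)) := by gcongr
          _ = _ := by field_simp; ring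
      have hA2 : (3 * (N : ℝ) / mx κ) ^ 2 * (2 * M * N) * ((R : ℝ) ^ 2 * (2 * M)) =
          36 * (M : ℝ) ^ 2 * N ^ 3 * R ^ 2 * (1 / (mx κ : ℝ) ^ 2) := by field_simp; ring
      have hC2 : (3 * (N : ℝ) / mx κ) ^ 2 * N ^ 2 * (R * ((R : ℝ) / mx κ + 1)) =
          9 * (N : ℝ) ^ 4 * R * (1 / (mx κ : ℝ) ^ 2) +
            9 * (N : ℝ) ^ 4 * R ^ 2 * (1 / (mx κ : ℝ) ^ 3) := by field_simp; ring
      have hp0 : 0 ≤ 9 * (N : ℝ) ^ 4 * R * (1 / (mx κ : ℝ) ^ 2) := by positivity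
      split_ifs at cC ⊢ <;> linarith)
  rw [sum_add_distrib, ← mul_sum, ← mul_sum, ← sum_filter] at h1
  have s1 := sum1 N L hL
  have s3 := sum3 N L p hp.pos hL
  calc _ ≤ _ := h1
    _ ≤ (36 * (M : ℝ) ^ 2 * N ^ 3 * R ^ 2 + 18 * (N : ℝ) ^ 4 * R ^ 2 / p ^ 2 +
      9 * (N : ℝ) ^ 4 * R) * (72 * L) + 9 * (N : ℝ) ^ 4 * R ^ 2 * (576 * L / p ^ 2) := by gcongr
    _ = _ := by ring

end Vale.Agent.P036
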