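import Vale.Agent.P036.MainII
import Vale.Agent.P036.Sigma0
import Vale.Agent.P036.Level
import Vale.Agent.P036.Digits

namespace Vale.Agent.P036
open Finset

abbrev Pt (C : Type) := (C × ℤ × ℤ) × (ℤ × ℤ × ℤ)

open Classical in
noncomputable def Uset {M p : ℕ} {C : Type} [Fintype C] (ν : ZMod p) (N J : ℕ)
    (A : C → Fin 3 → ℤ) (ω : Seed M p) : Finset (Pt C) :=
  (Labs C J ×ˢ Ico (0 : ℤ) N ×ˢ Ico (0 : ℤ) N ×ˢ Ico (2 * M * N : ℤ) (2 * M * N + N)).filter
    fun u => Cong ν ω (rowOf A u.1) u.2.1 u.2.2.1 u.2.2.2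

lemma mem_Uset {M p : ℕ} {C : Type} [Fintype C] {ν : ZMod p} {N J : ℕ} {A : C → Fin 3 → ℤ}
    {ω : Seed M p} {u : Pt C} : u ∈ Uset ν N J A ω ↔ (u.1 ∈ Labs C J ∧ (0 ≤ u.2.1 ∧ u.2.1 < N) ∧
      (0 ≤ u.2.2.1 ∧ u.2.2.1 < N) ∧ (2 * M * N ≤ u.2.2.2 ∧ u.2.2.2 < 2 * M * N + N)) ∧
      Cong ν ω (rowOf A u.1) u.2.1 u.2.2.1 u.2.2.2 := by
  simp [Uset]

lemma exists_lift {M p : ℕ} [NeZero M] [NeZero p] (hc : Nat.Coprime M p) (t : Rg M p) :
    ∃ n : ℕ, n < M * p ∧ (n : Rg M p) = t := by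
  refine ⟨((ZMod.chineseRemainder hc).symm t).val, ZMod.val_lt _, ?_⟩
  rw [← map_natCast (ZMod.chineseRemainder hc), ZMod.natCast_zmod_val, RingEquiv.apply_symm_apply]

lemma card_Uset {M p : ℕ} [NeZero M] [NeZero p] {C : Type} [Fintype C] (hc : Nat.Coprime M p)
    (ν : ZMod p) (R N J : ℕ) (hN : N = M * p * R) (A : C → Fin 3 → ℤ) (ω : Seed M p) :
    (Labs C J).card * ((p * R) * ((p * R) * R)) ≤ (Uset ν N J A ω).card := by
  choose lift h1 h2 using exists_lift hc
  have hM : (0 : ℤ) < M := by exact_mod_cast Nat.pos_of_ne_zero (NeZero.ne M)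
  have hp : (0 : ℤ) < p := by exact_mod_cast Nat.pos_of_ne_zero (NeZero.ne p)
  have hQ : ((M : Rg M p) * p) = 0 := by
    ext <;> simp
  let fx : (C × ℤ × ℤ) → ℕ → ℤ := fun lab i => (lin (rowOf A lab) ω.1.1).val + M * i
  let fy : (C × ℤ × ℤ) → ℕ → ℤ := fun lab i => (lin (rowOf A lab) ω.1.2).val + M * i
  let fz : (C × ℤ × ℤ) → ℤ → ℤ → ℕ → ℤ := fun lab x y i => 2 * M * N +
    (lift (zpt ν ω.1 ω.2.2 (rowOf A lab) x y + (ω.2.1.1 * x + ω.2.1.2 * y)) + M * p * i)
  have e : (Labs C J).card * ((p * R) * ((p * R) * R)) =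
      (Labs C J ×ˢ range (p * R) ×ˢ range (p * R) ×ˢ range R).card := by simp
  rw [e]
  have aux : ∀ (v m i n : ℕ), v < m → i < n →
      0 ≤ (v : ℤ) + m * i ∧ (v : ℤ) + m * i < (m * n : ℕ) := by
    intro v m i n hv hi
    have : v + m * i < m * n := by
      calc v + m * i < m + m * i := by omega
        _ = m * (i + 1) := by ring
        _ ≤ m * n := Nat.mul_le_mul_left _ hi
    exact ⟨by positivity, by exact_mod_cast this⟩
  apply card_le_card_of_injOn (fun s => (s.1, fx s.1 s.2.1, fy s.1 s.2.2.1,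
    fz s.1 (fx s.1 s.2.1) (fy s.1 s.2.2.1) s.2.2.2))
  · rintro ⟨lab, i, j, m⟩ hs
    simp only [coe_product, Set.mem_prod, mem_coe, mem_range] at hs
    obtain ⟨a1, a2, a3, a4⟩ := hs
    rw [mem_coe, mem_Uset]
    have hN' : N = M * (p * R) := by rw [hN]; ring
    refine ⟨⟨a1, ?_, ?_, ?_⟩, ?_, ?_, ?_⟩
    · rw [hN']; exact aux _ _ _ _ (ZMod.val_lt _) a2
    · rw [hN']; exact aux _ _ _ _ (ZMod.val_lt _) a3
    · have := aux _ _ _ _ (h1 (zpt ν ω.1 ω.2.2 (rowOf A lab) (fx lab i) (fy lab j) +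
        (ω.2.1.1 * fx lab i + ω.2.1.2 * fy lab j))) a4
      rw [← hN] at this
      simp only [fz]
      push_cast at this
      constructor <;> linarith [this.1, this.2]
    · simp [fx]
    · simp [fy]
    · simp only [fz, hN]
      push_cast
      rw [h2]
      linear_combination (2 * M * R + m : Rg M p) * hQ
  · rintro ⟨lab, i, j, m⟩ _ ⟨lab', i', j', m'⟩ _ h
    simp only [Prod.mk.injEq] at h
    obtain ⟨rfl, a2, a3, a4⟩ := h
    have b2 : i = i' := by
      simp only [fx, add_right_inj] at a2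
      exact_mod_cast mul_left_cancel₀ hM.ne' a2
    have b3 : j = j' := by
      simp only [fy, add_right_inj] at a3
      exact_mod_cast mul_left_cancel₀ hM.ne' a3
    subst b2 b3
    have b4 : m = m' := by
      simp only [fz, add_right_inj] at a4
      exact_mod_cast mul_left_cancel₀ (mul_pos hM hp).ne' a4
    rw [b4]

lemma card_Om (l k p : ℕ) [NeZero l] [NeZero p] (hl : l.Prime) (hk : 0 < k) :
    ((l : ℝ) ^ k) ^ 8 * p ^ 3 / 4 ≤ (Om (l ^ k) p).card := by
  have h1 : (univ : Finset (((ZMod (l ^ k))ˣ × (ZMod (l ^ k))ˣ × (Fin 4 → ZMod (l ^ k))) ×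
      (Rg (l ^ k) p × Rg (l ^ k) p) × ZMod p)).card ≤ (Om (l ^ k) p).card := by
    apply card_le_card_of_injOn (fun s => ((![s.1.1.val, s.1.2.2 0, s.1.2.2 1],
      ![s.1.2.2 2, (s.1.2.1.val + s.1.2.2 0 * s.1.2.2 2) * (s.1.1⁻¹).val, s.1.2.2 3]), s.2))
    · rintro ⟨⟨a, b, x⟩, r⟩ _
      rw [mem_coe, Om, mem_filter]
      refine ⟨mem_univ _, ?_⟩
      simp only [minor, Matrix.cons_val_zero, Matrix.cons_val_one]
      convert b.isUnit using 1
      have := a.mul_inv
      linear_combination ((b : ZMod (l ^ k)) + x 0 * x 2) * this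
    · rintro ⟨⟨a, b, x⟩, r⟩ _ ⟨⟨a', b', x'⟩, r'⟩ _ h
      simp only [Prod.mk.injEq] at h
      obtain ⟨⟨h1, h2⟩, rfl⟩ := h
      have e0 := congrFun h1 0
      have e1 := congrFun h1 1
      have e2 := congrFun h1 2
      have f0 := congrFun h2 0
      have f1 := congrFun h2 1
      have f2 := congrFun h2 2
      simp only [Matrix.cons_val_zero, Matrix.cons_val_one, Matrix.cons_val] at e0 e1 e2 f0 f1 f2
      have ea : a = a' := Units.ext e0
      subst ea
      have ex : x = x' := by funext i; fin_cases i <;> assumption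
      subst ex
      have eb : b = b' := Units.ext (by simpa using f1)
      rw [eb]
  simp only [card_univ, Fintype.card_prod, ZMod.card_units_eq_totient, ZMod.card, Fintype.card_pi,
    prod_const, Fintype.card_fin] at h1
  have h2 : l ^ k ≤ 2 * Nat.totient (l ^ k) := by
    rw [Nat.totient_prime_pow hl hk]
    obtain ⟨j, rfl⟩ : ∃ j, k = j + 1 := ⟨k - 1, by omega⟩
    have := hl.two_le
    rw [pow_succ, Nat.add_sub_cancel, ← mul_assoc, mul_comm 2, mul_assoc]
    exact Nat.mul_le_mul_left _ (by omega)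
  have h3 : (l : ℝ) ^ k / 2 ≤ Nat.totient (l ^ k) := by
    have : ((l : ℝ)) ^ k ≤ 2 * Nat.totient (l ^ k) := by exact_mod_cast h2
    linarith
  refine le_trans ?_ (Nat.cast_le.2 h1)
  push_cast
  calc _ = ((l : ℝ) ^ k / 2) * (((l : ℝ) ^ k / 2) * ((l : ℝ) ^ k) ^ 4) *
        ((l : ℝ) ^ k * p * ((l : ℝ) ^ k * p) * p) := by ring
    _ ≤ _ := by gcongr

def bad2 {C : Type} (t : Fin 2 → Pt C) : Prop :=
  (t 0).2.1 * (t 1).2.2.1 = (t 1).2.1 * (t 0).2.2.1

def tri {C : Type} (t : Fin 3 → Pt C) : Tri :=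
  (fun i => (t i).2.1, fun i => (t i).2.2.1, fun i => (t i).2.2.2)

def bad3 {C : Type} (T : ℕ) (t : Fin 3 → Pt C) : Prop :=
  (∀ i, cr (tri t).1 (tri t).2.1 i ≠ 0) ∧ 2 * |dot (cr (tri t).1 (tri t).2.1) (tri t).2.2| ≤ T

open Classical in
lemma B2_bound {M p : ℕ} {C : Type} [Fintype C] (hc : Nat.Coprime M p) (ν : ZMod p)
    (R N J L : ℕ) (hN : N = M * p * R) (hN0 : 0 < N) (hL : N < 2 ^ L) (A : C → Fin 3 → ℤ)
    (ω : Seed M p) :
    (((Fintype.piFinset fun _ : Fin 2 => Uset ν N J A ω).filter bad2).card : ℝ) ≤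
      ((Labs C J).card : ℝ) ^ 2 * (648 * L * (N : ℝ) ^ 2) * R ^ 2 := by
  set S := (Fintype.piFinset fun _ : Fin 2 => Uset ν N J A ω).filter bad2 with hS
  have hU : ∀ t ∈ S, ∀ i, t i ∈ Uset ν N J A ω := fun t ht =>
    Fintype.mem_piFinset.1 (mem_filter.1 ht).1
  have hQ : 0 < M * p := by
    rcases Nat.eq_zero_or_pos (M * p) with h | h
    · rw [h] at hN; omega
    · exact h
  set P := S.image fun t => (((t 0).2.1, (t 0).2.2.1), ((t 1).2.1, (t 1).2.2.1)) with hP
  have hPc := par_count N L hN0 hL P (by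
    intro s hs
    obtain ⟨t, ht, rfl⟩ := mem_image.1 hs
    obtain ⟨⟨_, a1, a2, _⟩, _⟩ := mem_Uset.1 (hU t ht 0)
    obtain ⟨⟨_, b1, b2, _⟩, _⟩ := mem_Uset.1 (hU t ht 1)
    exact ⟨by rw [abs_of_nonneg a1.1]; exact a1.2.le, by rw [abs_of_nonneg a2.1]; exact a2.2.le,
      by rw [abs_of_nonneg b1.1]; exact b1.2.le, by rw [abs_of_nonneg b2.1]; exact b2.2.le,
      (mem_filter.1 ht).2⟩)
  have h := card_le_fib S ((Labs C J ×ˢ Labs C J) ×ˢ P)
    (fun t => (((t 0).1, (t 1).1), (((t 0).2.1, (t 0).2.2.1), ((t 1).2.1, (t 1).2.2.1))))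
    ((R : ℝ) ^ 2) (by positivity) (by
      intro t ht
      exact mem_product.2 ⟨mem_product.2 ⟨(mem_Uset.1 (hU t ht 0)).1.1,
        (mem_Uset.1 (hU t ht 1)).1.1⟩, mem_image_of_mem _ ht⟩) (by
      intro t0 _
      set S' := S.filter fun t =>
        (((t 0).1, (t 1).1), (((t 0).2.1, (t 0).2.2.1), ((t 1).2.1, (t 1).2.2.1))) =
        (((t0 0).1, (t0 1).1), (((t0 0).2.1, (t0 0).2.2.1), ((t0 1).2.1, (t0 1).2.2.1))) with hS'
      have hm : ∀ t ∈ S', ∀ i, (t i).1 = (t0 i).1 ∧ (t i).2.1 = (t0 i).2.1 ∧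
          (t i).2.2.1 = (t0 i).2.2.1 := by
        intro t ht i
        have := (mem_filter.1 ht).2
        simp only [Prod.mk.injEq] at this
        fin_cases i
        · exact ⟨this.1.1, this.2.1⟩
        · exact ⟨this.1.2, this.2.2⟩
      have hi : ∀ i, (S'.image fun t => (t i).2.2.2).card ≤ R := by
        intro i
        apply card_res _ id (2 * M * N) (M * p) R hQ (fun _ _ _ _ h => h)
        · intro z hz
          obtain ⟨t, ht, rfl⟩ := mem_image.1 hz
          have := (mem_Uset.1 (hU t (mem_filter.1 ht).1 i)).1.2.2.2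
          rw [← Nat.cast_mul (M * p), ← hN]
          exact this
        · intro z hz z' hz'
          obtain ⟨t, ht, rfl⟩ := mem_image.1 hz
          obtain ⟨t', ht', rfl⟩ := mem_image.1 hz'
          apply ker_Rg hc
          have c1 := (mem_Uset.1 (hU t (mem_filter.1 ht).1 i)).2.2.2
          have c2 := (mem_Uset.1 (hU t' (mem_filter.1 ht').1 i)).2.2.2
          obtain ⟨a1, a2, a3⟩ := hm t ht i
          obtain ⟨b1, b2, b3⟩ := hm t' ht' i
          rw [a1, a2, a3] at c1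
          rw [b1, b2, b3] at c2
          simp only [id]
          push_cast
          rw [c1, c2, sub_self]
      have hc : S'.card ≤ ((S'.image fun t => (t 0).2.2.2) ×ˢ
          (S'.image fun t => (t 1).2.2.2)).card := by
        apply card_le_card_of_injOn (fun t => ((t 0).2.2.2, (t 1).2.2.2))
        · intro t ht
          simp only [coe_product, Set.mem_prod, mem_coe]
          exact ⟨mem_image_of_mem _ ht, mem_image_of_mem _ ht⟩
        · intro t ht t' ht' e
          simp only [Prod.mk.injEq] at e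
          funext i
          obtain ⟨a1, a2, a3⟩ := hm t ht i
          obtain ⟨b1, b2, b3⟩ := hm t' ht' i
          refine Prod.ext (a1.trans b1.symm) (Prod.ext (a2.trans b2.symm)
            (Prod.ext (a3.trans b3.symm) ?_))
          fin_cases i
          · exact e.1
          · exact e.2
      rw [card_product] at hc
      have := hc.trans (Nat.mul_le_mul (hi 0) (hi 1))
      rw [sq]; exact_mod_cast this)
  refine h.trans (mul_le_mul_of_nonneg_right ?_ (by positivity))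
  rw [card_product, card_product]
  push_cast
  rw [sq]
  exact mul_le_mul_of_nonneg_left hPc (by positivity)

open Classical in
lemma B3_bound {M p : ℕ} {C : Type} [Fintype C] (ν : ZMod p) (N J T : ℕ) (A : C → Fin 3 → ℤ)
    (ω : Seed M p) :
    (((Fintype.piFinset fun _ : Fin 3 => Uset ν N J A ω).filter (bad3 T)).card : ℝ) ≤
      ∑ lab ∈ Fintype.piFinset fun _ : Fin 3 => Labs C J,
        ((Wset ν N T ω fun i => rowOf A (lab i)).card : ℝ) := by
  apply card_le_sum_cover _ _ (fun lab t => (fun i => (t i).1) = lab)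
  · intro t ht
    refine ⟨_, Fintype.mem_piFinset.2 fun i => ?_, rfl⟩
    exact (mem_Uset.1 (Fintype.mem_piFinset.1 (mem_filter.1 ht).1 i)).1.1
  · intro lab _
    apply Nat.cast_le.2
    apply card_le_card_of_injOn tri
    · intro t ht
      obtain ⟨h1, rfl⟩ := mem_filter.1 ht
      obtain ⟨h2, h3⟩ := mem_filter.1 h1
      have hU := fun i => mem_Uset.1 (Fintype.mem_piFinset.1 h2 i)
      rw [mem_coe, mem_Wset]
      refine ⟨⟨mem_box.2 fun i => ?_, mem_box.2 fun i => ?_, mem_box.2 fun i => ?_⟩,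
        fun i => (hU i).2, h3⟩
      · simpa [tri] using (hU i).1.2.1
      · simpa [tri] using (hU i).1.2.2.1
      · exact (hU i).1.2.2.2
    · intro t ht t' ht' e
      have a := (mem_filter.1 ht).2.trans (mem_filter.1 ht').2.symm
      simp only [tri, Prod.mk.injEq] at e
      funext i
      exact Prod.ext (congrFun a i) (Prod.ext (congrFun e.1 i)
        (Prod.ext (congrFun e.2.1 i) (congrFun e.2.2 i)))

lemma W_empty {M p : ℕ} [NeZero M] [NeZero p] (ν : ZMod p) (N T : ℕ) (ω : Seed M p)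
    (hω : ω ∈ Om M p) (a : Fin 3 → Fin 3 → ℤ)
    (h : ∀ t : ℤ, 2 * |t| ≤ T →
      ¬ (M : ℤ) ∣ D3 (fun i => a i 0) (fun i => a i 1) (fun i => a i 2) - t) :
    Wset ν N T ω a = ∅ := by
  rw [eq_empty_iff_forall_notMem]
  rintro ⟨X, Y, Z⟩ ht
  obtain ⟨_, hc, _, hd⟩ := mem_Wset.1 ht
  apply h _ hd
  rw [← ZMod.intCast_eq_intCast_iff_dvd_sub]
  have hu := ZMod.mul_inv_of_unit _ (mem_filter.1 hω).2
  have z : ∀ i, (Z i : ZMod M) = (minor ω.1)⁻¹ * a i 2 + (ω.2.1.1.1 * X i + ω.2.1.2.1 * Y i) := by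
    intro i
    simpa [zpt] using congrArg Prod.fst (hc i).2.2
  have x : ∀ i, (X i : ZMod M) = lin (a i) ω.1.1 := fun i => (hc i).1
  have y : ∀ i, (Y i : ZMod M) = lin (a i) ω.1.2 := fun i => (hc i).2.1
  change ((D3 X Y Z : ℤ) : ZMod M) = _
  rw [D3_eq, D3_eq]
  push_cast
  generalize (minor ω.1)⁻¹ = μ at hu z
  simp only [z, x, y, lin]
  unfold minor at hu
  linear_combination (((a 1 0 : ZMod M) * a 2 1 - a 2 0 * a 1 1) * a 0 2 +
    (a 2 0 * a 0 1 - a 0 0 * a 2 1) * a 1 2 + (a 0 0 * a 1 1 - a 1 0 * a 0 1) * a 2 2) * hu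

end Vale.Agent.P036
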