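import Vale.Agent.P036.Sub

namespace Vale.Agent.P036
open Finset

abbrev Rg (M p : ℕ) := ZMod M × ZMod p

abbrev Seed (M p : ℕ) := ((Fin 3 → ZMod M) × (Fin 3 → ZMod M)) × (Rg M p × Rg M p) × ZMod p

abbrev Tri := (Fin 3 → ℤ) × (Fin 3 → ℤ) × (Fin 3 → ℤ)

def minor {M : ℕ} (ρ : (Fin 3 → ZMod M) × (Fin 3 → ZMod M)) : ZMod M :=
  ρ.1 0 * ρ.2 1 - ρ.1 1 * ρ.2 0

open Classical in
noncomputable def Om (M p : ℕ) [NeZero M] [NeZero p] : Finset (Seed M p) :=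
  univ.filter fun ω => IsUnit (minor ω.1)

def lin {M : ℕ} (r : Fin 3 → ℤ) (ρ : Fin 3 → ZMod M) : ZMod M :=
  r 0 * ρ 0 + r 1 * ρ 1 + r 2 * ρ 2

def zpt {M p : ℕ} (ν : ZMod p) (ρ : (Fin 3 → ZMod M) × (Fin 3 → ZMod M)) (γ : ZMod p)
    (r : Fin 3 → ℤ) (x y : ℤ) : Rg M p :=
  ((minor ρ)⁻¹ * r 2, (x : ZMod p) ^ 2 - ν * (y : ZMod p) ^ 2 + γ)

def Cong {M p : ℕ} (ν : ZMod p) (ω : Seed M p) (r : Fin 3 → ℤ) (x y z : ℤ) : Prop :=
  (x : ZMod M) = lin r ω.1.1 ∧ (y : ZMod M) = lin r ω.1.2 ∧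
    (z : Rg M p) = zpt ν ω.1 ω.2.2 r x y + (ω.2.1.1 * x + ω.2.1.2 * y)

def cr (X Y : Fin 3 → ℤ) : Fin 3 → ℤ :=
  ![X 1 * Y 2 - X 2 * Y 1, X 2 * Y 0 - X 0 * Y 2, X 0 * Y 1 - X 1 * Y 0]

open Classical in
noncomputable def Wset {M p : ℕ} (ν : ZMod p) (N T : ℕ) (ω : Seed M p)
    (a : Fin 3 → Fin 3 → ℤ) : Finset Tri :=
  (box 0 N ×ˢ box 0 N ×ˢ box (2 * M * N) N).filter fun t =>
    (∀ i, Cong ν ω (a i) (t.1 i) (t.2.1 i) (t.2.2 i)) ∧ (∀ i, cr t.1 t.2.1 i ≠ 0) ∧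
      2 * |dot (cr t.1 t.2.1) t.2.2| ≤ T

lemma mem_Wset {M p : ℕ} {ν : ZMod p} {N T : ℕ} {ω : Seed M p} {a : Fin 3 → Fin 3 → ℤ}
    {t : Tri} : t ∈ Wset ν N T ω a ↔ (t.1 ∈ box 0 N ∧ t.2.1 ∈ box 0 N ∧
      t.2.2 ∈ box (2 * M * N) N) ∧ (∀ i, Cong ν ω (a i) (t.1 i) (t.2.1 i) (t.2.2 i)) ∧
      (∀ i, cr t.1 t.2.1 i ≠ 0) ∧ 2 * |dot (cr t.1 t.2.1) t.2.2| ≤ T := by
  simp [Wset]

lemma isCr_iff {X Y κ : Fin 3 → ℤ} {g : ℤ} : IsCr X Y g κ ↔ ∀ i, cr X Y i = g * κ i := by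
  simp [IsCr, cr, Fin.forall_fin_succ]

lemma exists_prim (c : Fin 3 → ℤ) (h : c 0 ≠ 0) :
    ∃ (g : ℤ) (κ e : Fin 3 → ℤ), 0 < g ∧ (∀ i, c i = g * κ i) ∧ dot κ e = 1 := by
  set g1 : ℤ := ((Int.gcd (c 1) (c 2) : ℕ) : ℤ) with hg1
  set g : ℤ := ((Int.gcd (c 0) g1 : ℕ) : ℤ) with hg
  have hg0 : 0 < g := by
    rw [hg]; exact_mod_cast Int.gcd_pos_of_ne_zero_left _ h
  have d0 : g ∣ c 0 := Int.gcd_dvd_left _ _
  have dg : g ∣ g1 := Int.gcd_dvd_right _ _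
  have d1 : g ∣ c 1 := dg.trans (Int.gcd_dvd_left _ _)
  have d2 : g ∣ c 2 := dg.trans (Int.gcd_dvd_right _ _)
  obtain ⟨k0, e0⟩ := d0
  obtain ⟨k1, e1⟩ := d1
  obtain ⟨k2, e2⟩ := d2
  have b1 := Int.gcd_eq_gcd_ab (c 1) (c 2)
  have b2 := Int.gcd_eq_gcd_ab (c 0) g1
  rw [← hg1] at b1
  rw [← hg] at b2
  refine ⟨g, ![k0, k1, k2], ![Int.gcdA (c 0) g1, Int.gcdA (c 1) (c 2) * Int.gcdB (c 0) g1,
    Int.gcdB (c 1) (c 2) * Int.gcdB (c 0) g1], hg0, ?_, ?_⟩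
  · intro i; fin_cases i <;> assumption
  · apply mul_left_cancel₀ hg0.ne'
    simp only [dot, Matrix.cons_val_zero, Matrix.cons_val_one, Matrix.cons_val]
    generalize Int.gcdA (c 0) g1 = u at *
    generalize Int.gcdB (c 0) g1 = v at *
    generalize Int.gcdA (c 1) (c 2) = u' at *
    generalize Int.gcdB (c 1) (c 2) = v' at *
    linear_combination -b2 - v * b1 - u * e0 - u' * v * e1 - v' * v * e2

lemma abs_le_of_box {N : ℕ} {X : Fin 3 → ℤ} (h : X ∈ box 0 N) (i : Fin 3) : |X i| ≤ N := by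
  have := mem_box.1 h i
  rw [abs_le]; constructor <;> linarith [this.1, this.2]

lemma ker_Rg {M p : ℕ} (hc : Nat.Coprime M p) (n : ℤ) (h : (n : Rg M p) = 0) :
    ((M * p : ℕ) : ℤ) ∣ n := by
  have h1 : (n : ZMod M) = 0 := congrArg Prod.fst h
  have h2 : (n : ZMod p) = 0 := congrArg Prod.snd h
  rw [ZMod.intCast_zmod_eq_zero_iff_dvd] at h1 h2
  push_cast
  exact (Nat.isCoprime_iff_coprime.2 hc).mul_dvd h1 h2

def linHom {M : ℕ} (a : Fin 3 → Fin 3 → ℤ) : (Fin 3 → ZMod M) →+ (Fin 3 → ZMod M) where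
  toFun ρ i := lin (a i) ρ
  map_zero' := by funext i; simp [lin]
  map_add' ρ ρ' := by funext i; simp only [lin, Pi.add_apply]; ring

def combHom {R : Type*} [CommRing R] (X Y : Fin 3 → ℤ) : R × R →+ (Fin 3 → R) where
  toFun αβ i := αβ.1 * X i + αβ.2 * Y i
  map_zero' := by funext i; simp
  map_add' ρ ρ' := by funext i; simp only [Prod.fst_add, Prod.snd_add, Pi.add_apply]; ring

lemma mem_K {M : ℕ} [NeZero M] {a : Fin 3 → Fin 3 → ℤ} {κ : Fin 3 → ℤ} {ρ : Fin 3 → ZMod M} :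
    ρ ∈ Kset a κ M ↔ κ 0 * lin (a 0) ρ + κ 1 * lin (a 1) ρ + κ 2 * lin (a 2) ρ = 0 := by
  simp only [Kset, mem_filter, mem_univ, true_and, Fin.sum_univ_three, row, lin]
  push_cast
  constructor <;> intro h <;> linear_combination h

lemma K_of_dot {M : ℕ} {a : Fin 3 → Fin 3 → ℤ} {κ X : Fin 3 → ℤ} {ρ : Fin 3 → ZMod M}
    (h : ∀ i, (X i : ZMod M) = lin (a i) ρ) (hd : dot κ X = 0) :
    κ 0 * lin (a 0) ρ + κ 1 * lin (a 1) ρ + κ 2 * lin (a 2) ρ = 0 := by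
  have := congrArg (Int.cast : ℤ → ZMod M) hd
  unfold dot at this
  push_cast at this
  rwa [h, h, h] at this

open Classical in
noncomputable def Tset (a : Fin 3 → Fin 3 → ℤ) (κ : Fin 3 → ℤ) (M N : ℕ) [NeZero M] :
    Finset ((Fin 3 → ZMod M) × (Fin 3 → ℤ)) :=
  (univ ×ˢ box 0 N).filter fun s => (∀ i, (s.2 i : ZMod M) = lin (a i) s.1) ∧ dot κ s.2 = 0

lemma T_bound {M : ℕ} [NeZero M] (R' N : ℕ) (hN : N = M * R') (hN0 : 0 < N)
    (a : Fin 3 → Fin 3 → ℤ) (κ e X Y : Fin 3 → ℤ) (he : dot κ e = 1) (g : ℤ) (hg : g ≠ 0)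
    (hc : IsCr X Y g κ) (hX : X ∈ box 0 N) (hY : Y ∈ box 0 N) (ρ1 ρ2 : Fin 3 → ZMod M)
    (hX' : ∀ i, (X i : ZMod M) = lin (a i) ρ1) (hY' : ∀ i, (Y i : ZMod M) = lin (a i) ρ2) :
    ((Tset a κ M N).card : ℝ) ≤ (Kset a κ M).card * 343 * (N : ℝ) ^ 2 / (M ^ 2 * nrm κ) := by
  apply plane_count (R := ZMod M) M R' N (Nat.pos_of_ne_zero (NeZero.ne M)) hN hN0
    (fun n h => (ZMod.intCast_zmod_eq_zero_iff_dvd _ _).1 h) (linHom a) κ e X Y he g hg hc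
    (abs_le_of_box hX) (abs_le_of_box hY) ρ1 ρ2 hX' hY' 0 0 0
  intro s hs
  simp only [Tset, mem_filter, mem_product, mem_univ, true_and] at hs
  obtain ⟨h1, h2, h3⟩ := hs
  refine ⟨h1, fun i => by simpa [linHom] using h2 i, h3, fun u v => ?_⟩
  rw [mem_K]
  have k0 := K_of_dot h2 h3
  have k1 := K_of_dot hX' (hc.dotX hg)
  have k2 := K_of_dot hY' (hc.dotY hg)
  simp only [lin, Pi.sub_apply, zsmul_eq_mul, Pi.mul_apply, Pi.intCast_apply] at k0 k1 k2 ⊢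
  linear_combination k0 - (u : ZMod M) * k1 - (v : ZMod M) * k2

lemma dot_cr {X Y Z κ : Fin 3 → ℤ} {g : ℤ} (hc : IsCr X Y g κ) :
    dot (cr X Y) Z = g * dot κ Z := by
  have := isCr_iff.1 hc
  simp only [dot, this]; ring

lemma tau_le {X Y Z κ : Fin 3 → ℤ} {g : ℤ} {T : ℕ} (hg : g ≠ 0) (hc : IsCr X Y g κ)
    (h : 2 * |dot (cr X Y) Z| ≤ T) : 2 * |dot κ Z| ≤ T := by
  rw [dot_cr hc, abs_mul] at h
  have : 1 ≤ |g| := Int.one_le_abs hg
  nlinarith [abs_nonneg (dot κ Z)]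

lemma cast_dot {M p : ℕ} {ν : ZMod p} {ω : Seed M p} {a : Fin 3 → Fin 3 → ℤ}
    {X Y Z κ : Fin 3 → ℤ} (h : ∀ i, Cong ν ω (a i) (X i) (Y i) (Z i)) (hX : dot κ X = 0)
    (hY : dot κ Y = 0) : ((dot κ Z : ℤ) : Rg M p) =
      κ 0 * zpt ν ω.1 ω.2.2 (a 0) (X 0) (Y 0) + κ 1 * zpt ν ω.1 ω.2.2 (a 1) (X 1) (Y 1) +
        κ 2 * zpt ν ω.1 ω.2.2 (a 2) (X 2) (Y 2) := by
  have hX' := congrArg (Int.cast : ℤ → Rg M p) hX
  have hY' := congrArg (Int.cast : ℤ → Rg M p) hY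
  unfold dot at hX' hY' ⊢
  push_cast at hX' hY' ⊢
  rw [(h 0).2.2, (h 1).2.2, (h 2).2.2]
  linear_combination ω.2.1.1 * hX' + ω.2.1.2 * hY'

lemma fiber_bound {M p : ℕ} [NeZero M] [Fact p.Prime] (ν : ZMod p) (R' N T : ℕ)
    (hcop : Nat.Coprime M p) (hN : N = M * p * R') (hN0 : 0 < N) (hT : T < M)
    (a : Fin 3 → Fin 3 → ℤ) (κ e : Fin 3 → ℤ) (he : dot κ e = 1)
    (S : Finset ((_ : Seed M p) × Tri))
    (hS : ∀ s ∈ S, s.2 ∈ Wset ν N T s.1 a ∧ ∃ g, g ≠ 0 ∧ IsCr s.2.1 s.2.2.1 g κ) :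
    (S.card : ℝ) ≤ ((Kset a κ M).card * 343 * (N : ℝ) ^ 2 / (M ^ 2 * nrm κ)) ^ 2 *
      ((if (p : ℤ) ∣ sig κ then (p : ℝ) else 1) * (343 * (N : ℝ) ^ 2 / nrm κ)) := by
  classical
  have hp : p.Prime := Fact.out
  have hW : (0 : ℝ) ≤ if (p : ℤ) ∣ sig κ then (p : ℝ) else 1 := by split_ifs <;> positivity
  rcases S.eq_empty_or_nonempty with rfl | ⟨s0, hs0⟩
  · simp only [card_empty, Nat.cast_zero]; positivity
  obtain ⟨w0, g0, hg0, hc0⟩ := hS s0 hs0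
  rw [mem_Wset] at w0
  have hTb := T_bound (p * R') N (by rw [hN]; ring) hN0 a κ e _ _ he g0 hg0 hc0 w0.1.1 w0.1.2.1
    s0.1.1.1 s0.1.1.2 (fun i => (w0.2.1 i).1) (fun i => (w0.2.1 i).2.1)
  have h1 := card_le_fib S (Tset a κ M N ×ˢ Tset a κ M N)
    (fun s => ((s.1.1.1, s.2.1), (s.1.1.2, s.2.2.1)))
    ((if (p : ℤ) ∣ sig κ then (p : ℝ) else 1) * (343 * (N : ℝ) ^ 2 / nrm κ)) (by positivity)
    (by
      intro s hs
      obtain ⟨w, g, hg, hc⟩ := hS s hs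
      rw [mem_Wset] at w
      simp only [Tset, mem_product, mem_filter, mem_univ, true_and]
      exact ⟨⟨w.1.1, fun i => (w.2.1 i).1, hc.dotX hg⟩,
        ⟨w.1.2.1, fun i => (w.2.1 i).2.1, hc.dotY hg⟩⟩)
    (by
      intro s1 hs1
      obtain ⟨w1, g1, hg1, hc1⟩ := hS s1 hs1
      rw [mem_Wset] at w1
      set S1 := S.filter (fun s => ((s.1.1.1, s.2.1), (s.1.1.2, s.2.2.1)) =
        ((s1.1.1.1, s1.2.1), (s1.1.1.2, s1.2.2.1))) with hS1
      have hmem : ∀ s ∈ S1, s.1.1 = s1.1.1 ∧ s.2.1 = s1.2.1 ∧ s.2.2.1 = s1.2.2.1 ∧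
          s.2.2.2 ∈ box (2 * M * N) N ∧
          (∀ i, Cong ν s.1 (a i) (s1.2.1 i) (s1.2.2.1 i) (s.2.2.2 i)) ∧
          dot κ s.2.2.2 = dot κ s1.2.2.2 := by
        intro s hs
        obtain ⟨hs', he'⟩ := mem_filter.1 hs
        simp only [Prod.mk.injEq] at he'
        obtain ⟨⟨e1, e2⟩, e3, e4⟩ := he'
        obtain ⟨w, g, hg, hc⟩ := hS s hs'
        rw [mem_Wset] at w
        have e5 : s.1.1 = s1.1.1 := Prod.ext e1 e3
        have hcg := w.2.1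
        rw [e2, e4] at hcg
        refine ⟨e5, e2, e4, w.1.2.2, hcg, ?_⟩
        have c1 := congrArg Prod.fst (cast_dot hcg (hc1.dotX hg1) (hc1.dotY hg1))
        have c2 := congrArg Prod.fst (cast_dot w1.2.1 (hc1.dotX hg1) (hc1.dotY hg1))
        simp only [zpt, Prod.fst_add, Prod.fst_mul, Prod.fst_intCast, e5] at c1 c2
        have d := (ZMod.intCast_eq_intCast_iff_dvd_sub _ _ _).1 (c1.trans c2.symm)
        have t1 := tau_le hg hc w.2.2.2
        have t2 := tau_le hg1 hc1 w1.2.2.2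
        have hT' : (T : ℤ) < M := by exact_mod_cast hT
        have := Int.eq_zero_of_abs_lt_dvd d (by
          have := abs_sub (dot κ s1.2.2.2) (dot κ s.2.2.2)
          linarith)
        linarith
      have h2 := card_le_fib S1 (S1.image fun s => s.1.2.2) (fun s => s.1.2.2)
        (343 * (N : ℝ) ^ 2 / nrm κ) (by positivity) (fun s hs => mem_image_of_mem _ hs)
        (by
          intro s2 _
          set S2 := S1.filter (fun s => s.1.2.2 = s2.1.2.2) with hS2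
          have hc : S2.card = (S2.image fun s => (s.1.2.1, s.2.2.2)).card := by
            rw [card_image_of_injOn]
            intro s hs s' hs' h
            simp only [Prod.mk.injEq] at h
            obtain ⟨hs1', e1⟩ := mem_filter.1 hs
            obtain ⟨hs2', e2⟩ := mem_filter.1 hs'
            obtain ⟨a1, a2, a3, _⟩ := hmem s hs1'
            obtain ⟨b1, b2, b3, _⟩ := hmem s' hs2'
            obtain ⟨ω, t⟩ := s
            obtain ⟨ω', t'⟩ := s'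
            have : ω = ω' := Prod.ext (a1.trans b1.symm) (Prod.ext h.1 (e1.trans e2.symm))
            have : t = t' := Prod.ext (a2.trans b2.symm) (Prod.ext (a3.trans b3.symm) h.2)
            subst_vars
            rfl
          have hQ : 0 < M * p := Nat.mul_pos (Nat.pos_of_ne_zero (NeZero.ne M)) hp.pos
          have h3 := plane_count (R := Rg M p) (M * p) R' N hQ hN hN0 (ker_Rg hcop)
            (combHom s1.2.1 s1.2.2.1) κ e _ _ he g1 hg1 hc1 (abs_le_of_box w1.1.1)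
            (abs_le_of_box w1.1.2.1) (1, 0) (0, 1) (by simp [combHom]) (by simp [combHom])
            (fun i => zpt ν s1.1.1 s2.1.2.2 (a i) (s1.2.1 i) (s1.2.2.1 i))
            (dot κ s1.2.2.2) (2 * M * N) (S2.image fun s => (s.1.2.1, s.2.2.2)) univ
            (by
              intro x hx
              obtain ⟨s, hs, rfl⟩ := mem_image.1 hx
              obtain ⟨hs1', e1⟩ := mem_filter.1 hs
              obtain ⟨a1, _, _, a4, a5, a6⟩ := hmem s hs1'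
              refine ⟨a4, fun i => ?_, a6, fun _ _ => mem_univ _⟩
              rw [← a1, ← e1]
              exact (a5 i).2.2)
          rw [hc]
          refine h3.trans (le_of_eq ?_)
          have hQr : (0 : ℝ) < ((M * p : ℕ) : ℝ) := by exact_mod_cast hQ
          simp only [card_univ, Fintype.card_prod, ZMod.card]
          rw [Nat.cast_mul (M * p)]
          by_cases hn : (nrm κ : ℝ) = 0
          · simp [hn]
          · field_simp)
      refine h2.trans (mul_le_mul_of_nonneg_right ?_ (by positivity))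
      split_ifs with hps
      · have := card_le_univ (S1.image fun s => s.1.2.2)
        rw [ZMod.card] at this
        exact_mod_cast this
      · have : (S1.image fun s => s.1.2.2).card ≤ 1 := by
          rw [card_le_one]
          intro γ hγ γ' hγ'
          obtain ⟨s, hs, rfl⟩ := mem_image.1 hγ
          obtain ⟨s', hs', rfl⟩ := mem_image.1 hγ'
          obtain ⟨_, _, _, _, a5, a6⟩ := hmem s hs
          obtain ⟨_, _, _, _, b5, b6⟩ := hmem s' hs'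
          have c1 := congrArg Prod.snd (cast_dot a5 (hc1.dotX hg1) (hc1.dotY hg1))
          have c2 := congrArg Prod.snd (cast_dot b5 (hc1.dotX hg1) (hc1.dotY hg1))
          simp only [zpt, Prod.snd_add, Prod.snd_mul, Prod.snd_intCast, a6, b6] at c1 c2
          have hσ : ((sig κ : ℤ) : ZMod p) ≠ 0 := by
            rwa [Ne, ZMod.intCast_zmod_eq_zero_iff_dvd]
          apply mul_left_cancel₀ hσ
          unfold sig
          push_cast
          linear_combination c2 - c1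
        exact_mod_cast this)
  refine h1.trans (mul_le_mul_of_nonneg_right ?_ (by positivity))
  rw [card_product, Nat.cast_mul, sq]
  exact mul_self_le_mul_self (by positivity) hTb

end Vale.Agent.P036
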