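import Vale.Agent.P036.Plane

namespace Vale.Agent.P036
open Finset

def row (a : Fin 3 → Fin 3 → ℤ) (κ : Fin 3 → ℤ) (c : Fin 3) : ℤ :=
  κ 0 * a 0 c + κ 1 * a 1 c + κ 2 * a 2 c

def InL (a : Fin 3 → Fin 3 → ℤ) (m : ℕ) (κ : Fin 3 → ℤ) : Prop := ∀ c, (m : ℤ) ∣ row a κ c

def sig (κ : Fin 3 → ℤ) : ℤ := κ 0 + κ 1 + κ 2

open Classical in
noncomputable def Kset (a : Fin 3 → Fin 3 → ℤ) (κ : Fin 3 → ℤ) (M : ℕ) [NeZero M] :
    Finset (Fin 3 → ZMod M) :=
  univ.filter fun ρ => ∑ c, (row a κ c : ZMod M) * ρ c = 0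

open Classical in
noncomputable def Dset (a : Fin 3 → Fin 3 → ℤ) (m : ℕ) [NeZero m] : Finset (Fin 3 → ZMod m) :=
  univ.filter fun k => ∀ c, k 0 * a 0 c + k 1 * a 1 c + k 2 * a 2 c = 0

lemma K_le (a : Fin 3 → Fin 3 → ℤ) (κ : Fin 3 → ℤ) (l k b : ℕ) (hl : l.Prime) [NeZero (l ^ k)]
    (h : ¬ InL a (l ^ (b + 1)) κ) : (Kset a κ (l ^ k)).card ≤ l ^ b * (l ^ k) ^ 2 := by
  classical
  unfold InL at h
  push Not at h
  obtain ⟨c, hc⟩ := h
  have e : (l ^ k) ^ 2 = (univ : Finset (Fin 2 → ZMod (l ^ k))).card := by simp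
  rw [e]
  apply card_le_mul_card_image_of_maps_to (f := fun ρ i => ρ (c.succAbove i)) (by simp)
  intro r _
  apply card_ann l k b hl (row a κ c) (by exact_mod_cast hc) _ (fun ρ => ρ c)
  · intro x hx x' hx' h
    have h1 := (mem_filter.1 hx).2
    have h2 := (mem_filter.1 hx').2
    funext i
    rcases Fin.eq_self_or_eq_succAbove c i with rfl | ⟨j, rfl⟩
    · exact h
    · exact (congrFun h1 j).trans (congrFun h2 j).symm
  · intro x hx x' hx'
    have h1 := (mem_filter.1 hx).2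
    have h2 := (mem_filter.1 hx').2
    have k1 := (mem_filter.1 (mem_filter.1 hx).1).2
    have k2 := (mem_filter.1 (mem_filter.1 hx').1).2
    rw [Fin.sum_univ_succAbove _ c] at k1 k2
    have : ∀ j, x (c.succAbove j) = x' (c.succAbove j) :=
      fun j => (congrFun h1 j).trans (congrFun h2 j).symm
    simp only [this] at k1
    linear_combination k1 - k2

open Classical in
lemma K_bound (a : Fin 3 → Fin 3 → ℤ) (κ : Fin 3 → ℤ) (l k : ℕ) (hl : l.Prime) [NeZero (l ^ k)] :
    ((Kset a κ (l ^ k)).card : ℝ) ^ 2 ≤ ((l : ℝ) ^ k) ^ 4 *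
      ∑ j ∈ range (k + 1), if InL a (l ^ j) κ then ((l : ℝ) ^ j) ^ 2 else 0 := by
  set v := Nat.findGreatest (fun j => InL a (l ^ j) κ) k with hv
  have h0 : InL a (l ^ v) κ :=
    Nat.findGreatest_spec (P := fun j => InL a (l ^ j) κ) (Nat.zero_le k) (by intro c; simp)
  have hvk : v ≤ k := Nat.findGreatest_le k
  have h1 : (Kset a κ (l ^ k)).card ≤ l ^ v * (l ^ k) ^ 2 := by
    rcases hvk.eq_or_lt with h | h
    · rw [h]
      have := card_le_univ (Kset a κ (l ^ k))
      simp only [Fintype.card_pi, ZMod.card, prod_const, card_univ, Fintype.card_fin] at this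
      calc _ ≤ _ := this
        _ = _ := by ring
    · exact K_le a κ l k v hl (Nat.findGreatest_is_greatest (P := fun j => InL a (l ^ j) κ)
        (Nat.lt_succ_self v) h)
  have h2 : ((Kset a κ (l ^ k)).card : ℝ) ≤ (l : ℝ) ^ v * ((l : ℝ) ^ k) ^ 2 := by exact_mod_cast h1
  have h3 : ((l : ℝ) ^ v) ^ 2 ≤
      ∑ j ∈ range (k + 1), if InL a (l ^ j) κ then ((l : ℝ) ^ j) ^ 2 else 0 := by
    have := single_le_sum (f := fun j => if InL a (l ^ j) κ then ((l : ℝ) ^ j) ^ 2 else 0)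
      (s := range (k + 1)) (fun j _ => by split_ifs <;> positivity)
      (mem_range.2 (Nat.lt_succ_of_le hvk))
    simpa [h0] using this
  calc _ ≤ ((l : ℝ) ^ v * ((l : ℝ) ^ k) ^ 2) ^ 2 := pow_le_pow_left₀ (by positivity) h2 2
    _ = ((l : ℝ) ^ k) ^ 4 * ((l : ℝ) ^ v) ^ 2 := by ring
    _ ≤ _ := mul_le_mul_of_nonneg_left h3 (by positivity)

lemma unit_cancel (l j : ℕ) (hl : l.Prime) (y : ℤ) (hy : ¬ (l : ℤ) ∣ y) (x : ZMod (l ^ j))
    (h : x * y = 0) : x = 0 := by
  have hu : IsUnit (y : ZMod (l ^ j)) := by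
    rw [ZMod.coe_int_isUnit_iff_isCoprime]
    push_cast
    apply IsCoprime.pow_left
    exact (Prime.coprime_iff_not_dvd (Nat.prime_iff_prime_int.1 hl)).2 hy
  exact (hu.mul_left_eq_zero).1 h

lemma D_triv (a : Fin 3 → Fin 3 → ℤ) (l j : ℕ) (hl : l.Prime) [NeZero (l ^ j)]
    (hu : ¬ (l : ℤ) ∣ a 0 2) : (Dset a (l ^ j)).card ≤ l ^ j * l ^ j := by
  classical
  have e : l ^ j * l ^ j = (univ : Finset (ZMod (l ^ j) × ZMod (l ^ j))).card := by simp
  rw [e]
  apply card_le_card_of_injOn (fun k => (k 1, k 2)) (by simp)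
  intro x hx x' hx' h
  simp only [Prod.mk.injEq] at h
  have k1 := (mem_filter.1 hx).2 2
  have k2 := (mem_filter.1 hx').2 2
  have h0 : x 0 - x' 0 = 0 := by
    apply unit_cancel l j hl _ hu
    rw [h.1, h.2] at k1
    linear_combination k1 - k2
  funext i
  fin_cases i
  · exact sub_eq_zero.1 h0
  · exact h.1
  · exact h.2

lemma D_ker_aux (a : Fin 3 → Fin 3 → ℤ) (l j b : ℕ) (hl : l.Prime) [NeZero (l ^ j)]
    (hu : ¬ (l : ℤ) ∣ a 0 2) (i i' c : Fin 3) (S : Finset (Fin 3 → ZMod (l ^ j)))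
    (hext : ∀ k k' : Fin 3 → ZMod (l ^ j), k 0 = k' 0 → k i = k' i → k i' = k' i' → k = k')
    (hS : ∀ k ∈ S, ∀ c, k 0 * a 0 c + k i * a i c + k i' * a i' c = 0)
    (hb : ¬ (l : ℤ) ^ (b + 1) ∣ a 0 c * a i 2 - a 0 2 * a i c) : S.card ≤ l ^ b * l ^ j := by
  classical
  have e : l ^ j = (univ : Finset (ZMod (l ^ j))).card := by simp
  conv_rhs => rw [e]
  apply card_le_mul_card_image_of_maps_to (f := fun k => k i') (by simp)
  intro r _
  apply card_ann l j b hl _ hb _ (fun k => k i)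
  · intro x hx x' hx' h
    have h1 := (mem_filter.1 hx).2
    have h2 := (mem_filter.1 hx').2
    have k1 := hS x (mem_filter.1 hx).1 2
    have k2 := hS x' (mem_filter.1 hx').1 2
    have h0 : x 0 - x' 0 = 0 := by
      apply unit_cancel l j hl _ hu
      rw [h, h1] at k1
      rw [h2] at k2
      linear_combination k1 - k2
    exact hext _ _ (sub_eq_zero.1 h0) h (h1.trans h2.symm)
  · intro x hx x' hx'
    have h1 := (mem_filter.1 hx).2
    have h2 := (mem_filter.1 hx').2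
    have k1 := hS x (mem_filter.1 hx).1 2
    have k2 := hS x' (mem_filter.1 hx').1 2
    have k3 := hS x (mem_filter.1 hx).1 c
    have k4 := hS x' (mem_filter.1 hx').1 c
    rw [h1] at k1 k3
    rw [h2] at k2 k4
    push_cast
    linear_combination (a 0 c : ZMod (l ^ j)) * (k1 - k2) - (a 0 2 : ZMod (l ^ j)) * (k3 - k4)

lemma D_ker (a : Fin 3 → Fin 3 → ℤ) (l j b : ℕ) (hl : l.Prime) [NeZero (l ^ j)]
    (hu : ¬ (l : ℤ) ∣ a 0 2) (i c : Fin 3) (hi : i = 1 ∨ i = 2)
    (hb : ¬ (l : ℤ) ^ (b + 1) ∣ a 0 c * a i 2 - a 0 2 * a i c) :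
    (Dset a (l ^ j)).card ≤ l ^ b * l ^ j := by
  rcases hi with rfl | rfl
  · apply D_ker_aux a l j b hl hu 1 2 c _ _ _ hb
    · intro k k' h0 h1 h2
      funext i; fin_cases i <;> assumption
    · intro k hk c
      exact (mem_filter.1 hk).2 c
  · apply D_ker_aux a l j b hl hu 2 1 c _ _ _ hb
    · intro k k' h0 h1 h2
      funext i; fin_cases i <;> assumption
    · intro k hk c
      linear_combination (mem_filter.1 hk).2 c

lemma sub_count (a : Fin 3 → Fin 3 → ℤ) (m p s : ℕ) [NeZero m] (hp : 0 < p)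
    (hcop : Nat.Coprime m p) (hs : m ≤ s) (y : ℝ) (hy : 0 ≤ y) (T : Finset (Fin 3 → ℤ))
    (hT : ∀ κ ∈ T, InL a m κ ∧ |κ 1| ≤ s ∧ |κ 2| ≤ s ∧ sig κ ≠ 0 ∧ (p : ℤ) ∣ sig κ ∧
      ((|sig κ| : ℤ) : ℝ) ≤ y) :
    (T.card : ℝ) ≤ (Dset a m).card / (m : ℝ) ^ 3 * (18 * y * (s : ℝ) ^ 2 / p) := by
  classical
  have hm : 0 < m := Nat.pos_of_ne_zero (NeZero.ne m)
  have hmz : (0 : ℤ) < m := by exact_mod_cast hm
  let G : AddSubgroup ℤ :=
    { carrier := {x | ∃ κ, InL a m κ ∧ sig κ = x}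
      add_mem' := by
        rintro _ _ ⟨κ, h1, rfl⟩ ⟨κ', h2, rfl⟩
        refine ⟨κ + κ', fun c => ?_, by simp only [sig, Pi.add_apply]; ring⟩
        have e : row a (κ + κ') c = row a κ c + row a κ' c := by
          simp only [row, Pi.add_apply]; ring
        rw [e]; exact (h1 c).add (h2 c)
      zero_mem' := ⟨0, fun c => by simp [row], by simp [sig]⟩
      neg_mem' := by
        rintro _ ⟨κ, h1, rfl⟩
        refine ⟨-κ, fun c => ?_, by simp only [sig, Pi.neg_apply]; ring⟩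
        have e : row a (-κ) c = - row a κ c := by
          simp only [row, Pi.neg_apply]; ring
        rw [e]; exact (h1 c).neg_right }
  obtain ⟨ι, hι⟩ := Int.subgroup_cyclic G
  have hG : ∀ κ, InL a m κ → ι ∣ sig κ := by
    intro κ h
    have : sig κ ∈ G := ⟨κ, h, rfl⟩
    rw [hι, AddSubgroup.mem_closure_singleton] at this
    obtain ⟨n, hn⟩ := this
    exact ⟨n, by rw [← hn]; simp [mul_comm]⟩
  obtain ⟨κs, hκs, hσs⟩ : ι ∈ G := by rw [hι]; exact AddSubgroup.mem_closure_singleton_self _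
  have hιm : ι ∣ m := by
    have := hG (fun i => if i = 0 then (m : ℤ) else 0) (fun c => by simp [row])
    simpa [sig] using this
  obtain ⟨w, hw⟩ : ι.natAbs ∣ m := Int.natAbs_dvd_natAbs.2 hιm
  have hι0 : 0 < ι.natAbs := Nat.pos_of_mul_pos_right (hw ▸ hm)
  have hw0 : 0 < w := Nat.pos_of_mul_pos_left (hw ▸ hm)
  have hιne : ι ≠ 0 := Int.natAbs_pos.1 hι0
  have hmr : (0 : ℝ) < m := by exact_mod_cast hm
  have hwr : (0 : ℝ) < w := by exact_mod_cast hw0
  have hιr : (0 : ℝ) < ι.natAbs := by exact_mod_cast hι0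
  have hpr : (0 : ℝ) < p := by exact_mod_cast hp
  have hsr : (m : ℝ) ≤ s := by exact_mod_cast hs
  have hmw : (m : ℝ) = ι.natAbs * w := by exact_mod_cast hw
  have hfib : ∀ κ0 ∈ T, ((T.filter (fun κ => sig κ = sig κ0)).card : ℝ) ≤
      (Dset a m).card * (3 * s / m) ^ 2 / w := by
    intro κ0 _
    have hc : ((T.filter (fun κ => sig κ = sig κ0)) ×ˢ range w).card ≤
        (Dset a m ×ˢ (range (2 * s / m + 1) ×ˢ range (2 * s / m + 1))).card := by
      apply card_le_card_of_injOn (fun x : (Fin 3 → ℤ) × ℕ =>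
        ((fun i => ((x.1 i + x.2 * κs i : ℤ) : ZMod m)),
        ((x.1 1 + (s : ℤ)) / (m : ℤ)).toNat, ((x.1 2 + (s : ℤ)) / (m : ℤ)).toNat))
      · rintro ⟨κ, i⟩ hx
        simp only [coe_product, Set.mem_prod, mem_coe, mem_filter, mem_range] at hx ⊢
        obtain ⟨h1, h2, h3, _⟩ := hT κ hx.1.1
        have aux : ∀ t : ℤ, |t| ≤ s → ((t + s) / m).toNat < 2 * s / m + 1 := by
          intro t ht
          have h4 := abs_le.1 ht
          have h5 : (t + s) / m ≤ ((2 * s : ℕ) : ℤ) / m :=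
            Int.ediv_le_ediv hmz (by push_cast; linarith)
          rw [← Int.natCast_div] at h5
          generalize 2 * s / m = w at h5 ⊢
          omega
        refine ⟨mem_filter.2 ⟨mem_univ _, fun c => ?_⟩, aux _ h2, aux _ h3⟩
        have d1 := (ZMod.intCast_zmod_eq_zero_iff_dvd _ _).2 (h1 c)
        have d2 := (ZMod.intCast_zmod_eq_zero_iff_dvd _ _).2 (hκs c)
        simp only [row] at d1 d2
        push_cast at d1 d2 ⊢
        linear_combination d1 + (i : ZMod m) * d2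
      · rintro ⟨κ, i⟩ hx ⟨κ', i'⟩ hx' hxy
        simp only [coe_product, Set.mem_prod, mem_coe, mem_filter, mem_range, Prod.mk.injEq]
          at hx hx' hxy
        obtain ⟨e0, e1, e2⟩ := hxy
        have d : ∀ t, (m : ℤ) ∣ (κ' t + i' * κs t) - (κ t + i * κs t) := fun t =>
          (ZMod.intCast_eq_intCast_iff_dvd_sub _ _ _).1 (congrFun e0 t)
        have hσ : sig κ = sig κ' := hx.1.2.trans hx'.1.2.symm
        have hii : i = i' := by
          have d4 : (m : ℤ) ∣ ((i' : ℤ) - i) * ι := by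
            have := ((d 0).add (d 1)).add (d 2)
            unfold sig at hσ hσs
            have e : ((i' : ℤ) - i) * ι = κ' 0 + i' * κs 0 - (κ 0 + i * κs 0) +
              (κ' 1 + i' * κs 1 - (κ 1 + i * κs 1)) + (κ' 2 + i' * κs 2 - (κ 2 + i * κs 2)) := by
              linear_combination hσ - ((i' : ℤ) - i) * hσs
            rw [e]; exact this
          have d5 : (w : ℤ) ∣ (i' : ℤ) - i := by
            rw [hw] at d4
            push_cast at d4
            rw [mul_comm |ι|] at d4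
            have d6 : (w : ℤ) * |ι| ∣ ((i' : ℤ) - i) * |ι| := by
              rcases abs_choice ι with h | h
              · rw [h] at d4 ⊢; exact d4
              · rw [h] at d4 ⊢; rw [mul_neg ((i' : ℤ) - i)]; exact d4.neg_right
            exact (mul_dvd_mul_iff_right (abs_ne_zero.2 hιne)).1 d6
          have := Int.eq_zero_of_abs_lt_dvd d5 (by
            have h1 := hx.2
            have h2 := hx'.2
            rw [abs_lt]; constructor <;> omega)
          omega
        subst hii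
        obtain ⟨_, h2, h3, _⟩ := hT κ hx.1.1
        obtain ⟨_, h2', h3', _⟩ := hT κ' hx'.1.1
        have aux : ∀ t t' : ℤ, |t| ≤ s → |t'| ≤ s → (m : ℤ) ∣ t' - t →
            ((t + s) / m).toNat = ((t' + s) / m).toNat → t = t' := by
          intro t t' ht ht' ⟨c, hc⟩ he
          have h4 := abs_le.1 ht
          have h5 := abs_le.1 ht'
          have h6 : 0 ≤ (t + s) / m := Int.ediv_nonneg (by linarith) hmz.le
          have h7 : 0 ≤ (t' + s) / m := Int.ediv_nonneg (by linarith) hmz.le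
          have h8 : (t + s) / m = (t' + s) / m := by omega
          have h9 : t' + s = t + s + m * c := by linarith
          rw [h9, Int.add_mul_ediv_left _ _ hmz.ne'] at h8
          have : c = 0 := by linarith
          rw [this] at hc; linarith
        have f1 : κ 1 = κ' 1 := aux _ _ h2 h2' (by simpa using d 1) e1
        have f2 : κ 2 = κ' 2 := aux _ _ h3 h3' (by simpa using d 2) e2
        have f0 : κ 0 = κ' 0 := by unfold sig at hσ; linarith
        refine Prod.ext ?_ rfl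
        funext t; fin_cases t <;> assumption
    simp only [card_product, card_range] at hc
    have h1 : ((2 * s / m + 1 : ℕ) : ℝ) ≤ 3 * s / m := by
      have h2 : ((2 * s / m : ℕ) : ℝ) ≤ ((2 * s : ℕ) : ℝ) / m := Nat.cast_div_le
      have h3 : 1 ≤ (s : ℝ) / m := by rw [le_div_iff₀ hmr]; linarith
      push_cast at h2 ⊢
      have : 3 * (s : ℝ) / m = 2 * s / m + s / m := by ring
      linarith
    rw [le_div_iff₀ hwr]
    calc _ ≤ ((Dset a m).card : ℝ) * (((2 * s / m + 1 : ℕ) : ℝ) * ((2 * s / m + 1 : ℕ) : ℝ)) := by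
          exact_mod_cast hc
      _ ≤ ((Dset a m).card : ℝ) * ((3 * s / m) * (3 * s / m)) :=
          mul_le_mul_of_nonneg_left (mul_self_le_mul_self (by positivity) h1) (by positivity)
      _ = _ := by ring
  have hσ : ((T.image sig).card : ℝ) ≤ 2 * y / ((ι.natAbs * p : ℕ) : ℝ) := by
    apply card_mult _ _ _ (Nat.mul_pos hι0 hp) hy
    intro x hx
    obtain ⟨κ, hκ, rfl⟩ := mem_image.1 hx
    obtain ⟨h1, _, _, h4, h5, h6⟩ := hT κ hκ
    refine ⟨h4, ?_, h6⟩
    have hc : Nat.Coprime ι.natAbs p := Nat.Coprime.coprime_dvd_left ⟨w, hw⟩ hcop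
    push_cast
    apply IsCoprime.mul_dvd _ ((abs_dvd _ _).2 (hG κ h1)) h5
    have := Nat.isCoprime_iff_coprime.2 hc
    simpa using this
  calc (T.card : ℝ) ≤ (T.image sig).card * ((Dset a m).card * (3 * s / m) ^ 2 / w) :=
        card_le_fib T _ sig _ (by positivity) (fun κ h => mem_image_of_mem _ h) hfib
    _ ≤ (2 * y / ((ι.natAbs * p : ℕ) : ℝ)) * ((Dset a m).card * (3 * s / m) ^ 2 / w) :=
        mul_le_mul_of_nonneg_right hσ (by positivity)
    _ = _ := by
        rw [Nat.cast_mul]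
        generalize ((Dset a m).card : ℝ) = D
        rw [hmw]
        field_simp
        ring

end Vale.Agent.P036
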